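import Mathlib

/-! The cobar complex of `P = F_p[t_1, t_2, ...]` on block polynomials and the list `PFacts` of the
facts on `Ext_P(F_p, F_p)` used in the construction of `V(4)`. -/

namespace Vale.Agent.P257.Q.PC

open MvPolynomial Finset

/-- Block polynomials: the variable `(j, n)` is `t_(n+1)` of block `j`. -/
abbrev KP (p : ℕ) : Type := MvPolynomial (ℕ × ℕ) (ZMod p)

/-- `t_n` of block `j` (`t_0 = 1`). -/
noncomputable def tt (p j n : ℕ) : KP p := if n = 0 then 1 else X (j, n - 1)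

/-- The shift of blocks. -/
noncomputable def sh (p : ℕ) : KP p →ₐ[ZMod p] KP p := rename fun x => (x.1 + 1, x.2)

/-- The coproduct on block `i`. -/
noncomputable def δ (p i : ℕ) : KP p →ₐ[ZMod p] KP p :=
  aeval fun x => if x.1 < i then X x else if x.1 = i then
    ∑ a ∈ range (x.2 + 2), tt p i a * tt p (i + 1) (x.2 + 1 - a) ^ p ^ a
  else X (x.1 + 1, x.2)

/-- The degree of `t_(n+1)` (in units of `q = 2 (p - 1)`). -/
def wt (p n : ℕ) : ℕ := ∑ i ∈ range (n + 1), p ^ i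

/-- Cochains of degree `(s, N)`. -/
noncomputable def Ch (p s N : ℕ) : Submodule (ZMod p) (KP p) :=
  Submodule.span (ZMod p) {z | ∃ e : ℕ × ℕ →₀ ℕ, (∀ i ∈ e.support, i.1 < s) ∧
    (e.sum fun i m => m * wt p i.2) = N ∧ z = monomial e 1}

/-- The cobar differential on `C^s`. -/
noncomputable def cob (p s : ℕ) : KP p →ₗ[ZMod p] KP p :=
  (sh p).toLinearMap + ∑ i ∈ range s, (-1 : ZMod p) ^ (i + 1) • (δ p i).toLinearMap +
    (-1 : ZMod p) ^ (s + 1) • LinearMap.id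

/-- Cocycles. -/
noncomputable def Zc (p s N : ℕ) : Submodule (ZMod p) (KP p) := Ch p s N ⊓ (cob p s).ker

/-- Coboundaries. -/
noncomputable def Bc (p : ℕ) : ℕ → ℕ → Submodule (ZMod p) (KP p)
  | 0, _ => ⊥
  | s + 1, N => (Ch p s N).map (cob p s)

/-- `Ext_P^(s, N) = 0`. -/
def Van (p s N : ℕ) : Prop := Zc p s N ≤ Bc p s N

/-- `b_(1,0)` up to sign. -/
noncomputable def b10 (p : ℕ) : KP p :=
  ∑ i ∈ Ioo 0 p, ((p.choose i / p : ℕ) : KP p) * X (0, 0) ^ i * X (1, 0) ^ (p - i)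

/-- Left multiplication by `b_(1,0)`. -/
noncomputable def mulb (p : ℕ) (x : KP p) : KP p := b10 p * sh p (sh p x)

/-- The degree of `v_4`, in units of `q`. -/
def ee (p : ℕ) : ℕ := 1 + p + p ^ 2 + p ^ 3

/-- The facts on `Ext_P(F_p, F_p)` which are used. -/
structure PFacts (p : ℕ) : Prop where
  vanish : ∀ s N, 2 * N + p < p * s → Van p s N
  G2 : ∀ z ∈ Zc p (2 * p - 1) (ee p + 1),
    X (0, 0) ^ p ^ 4 * sh p z ∈ Bc p (2 * p) (ee p + 1 + p ^ 4) → z ∈ Bc p (2 * p - 1) (ee p + 1)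
  G3 : ∀ k, 2 ≤ k → k ≠ p → Van p (k * (2 * (p - 1)) + 1) (ee p + k)
  G4 : ∀ y ∈ Zc p (p * (2 * (p - 1)) + 1) (ee p + p), ∃ w ∈ Zc p 5 (1 + 4 * p + 2 * p ^ 2),
    y - (mulb p)^[p ^ 2 - p - 2] w ∈ Bc p (p * (2 * (p - 1)) + 1) (ee p + p)
  G4' : Van p 6 (2 + 4 * p + 2 * p ^ 2)
  G5 : ∀ k, 1 ≤ k → k ≤ p - 1 → Van p (k * (2 * (p - 1)) + 6) (1 + 4 * p + 2 * p ^ 2 + k)
  G6 : ∀ j, 3 ≤ j → j ≤ p - 1 → Van p (j * (2 * (p - 1)) + 6) (ee p + 3 * p + j)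
  G6' : ∀ y ∈ Zc p (2 * (2 * (p - 1)) + 6) (ee p + 3 * p + 2),
    ∃ T ∈ Zc p (2 * (2 * (p - 1))) (ee p + 2),
      y - (mulb p)^[3] T ∈ Bc p (2 * (2 * (p - 1)) + 6) (ee p + 3 * p + 2)
  G7 : ∀ y ∈ Zc p (p * (2 * (p - 1)) + 1) (ee p + p),
    (mulb p)^[3] y ∈ Bc p (p * (2 * (p - 1)) + 7) (ee p + 4 * p) →
      y ∈ Bc p (p * (2 * (p - 1)) + 1) (ee p + p)

end Vale.Agent.P257.Q.PC
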