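import Vale.Agent.P257.Q.Inst

/-! From the facts on `Ext(BP_*, BP_*/I_4)` to the existence of `V(4)`. -/

namespace Vale.Agent.P257.Q

open MvPolynomial TensorProduct Finset CategoryTheory MonoidalCategory Limits Pretriangulated
  Vale.Agent.P257.S

universe v' u

section Delta

variable {p : ℕ} {A : Type} [CommRing A] {B : S.BPBP p A} {M : ModuleCat.{0} A} {D : Comod B M}

theorem tmul_inj {P : Type} [CommRing P] [Algebra A P] {g : M} (hs : ∀ y : M, ∃ a : A, y = a • g)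
    (ha : ∀ a : A, a • g = 0 → a = 0) {w w' : P} (h : w ⊗ₜ[A] g = w' ⊗ₜ[A] g) : w = w' := by
  have hb : Function.Bijective (LinearMap.toSpanSingleton A M g) := by
    constructor
    · rw [injective_iff_map_eq_zero]
      intro a h
      rw [LinearMap.toSpanSingleton_apply] at h
      exact ha a h
    · intro y
      obtain ⟨a, rfl⟩ := hs y
      exact ⟨a, by simp⟩
  let e : A ≃ₗ[A] M := LinearEquiv.ofBijective _ hb
  have he : e.symm g = 1 := by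
    rw [LinearEquiv.symm_apply_eq]
    simp [e]
  have h1 := congrArg (fun z => TensorProduct.rid A P (LinearMap.lTensor P e.symm.toLinearMap z)) h
  simpa [he] using h1

theorem deltaEta {g : M} {k : ℤ} (hg : IsCyclic D 0 k g) : DeltaEta B := by
  intro a
  have h0 : ∀ a : A, a • g = 0 → a = 0 := by
    intro a h
    rw [hg.2.2.2] at h
    have : {b | ∃ i < 0, b = B.v i} = (∅ : Set A) := by
      ext b
      simp
    rw [this, Ideal.span_empty, Ideal.mem_bot] at h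
    exact h
  have h1 : D.ψ (a • g) = ∑ i ∈ range 1, (fun _ : ℕ => B.η a) i ⊗ₜ[A] (fun _ : ℕ => g) i := by
    rw [D.smul, hg.2.1, smul_tmul', smul_eq_mul, mul_one]
    simp
  have h2 := D.coassoc (a • g) 1 (fun _ => B.η a) (fun _ => g) 1 (fun _ _ => 1) (fun _ _ => g) h1
    (fun i _ => by rw [hg.2.1]; simp)
  simp only [range_one, sum_singleton, map_one, mul_one] at h2
  exact tmul_inj hg.2.2.1 h0 h2

end Delta

section Setting

variable {p : ℕ} {R : Type} [CommRing R] {B : S.BPBP p (MvPolynomial ℕ R)}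
  {T : Type u} [Category.{v'} T] [Preadditive T] [HasShift T ℤ] [MonoidalCategory T]
  {h : T ⥤ ModuleCat.{0} (MvPolynomial ℕ R)} {C : ∀ X, Comod B (h.obj X)}
  {κ : ∀ X Y, h.obj X →ₗ[MvPolynomial ℕ R] h.obj Y →ₗ[MvPolynomial ℕ R] h.obj (X ⊗ Y)}
  {g : h.obj (𝟙_ T)} {F : T → Prop}
  {E : ∀ X : T, ℕ → ℕ → ℤ → AddSubgroup (W (MvPolynomial ℕ R) ⊗[MvPolynomial ℕ R] h.obj X ×
      W (MvPolynomial ℕ R) ⊗[MvPolynomial ℕ R] h.obj X)}
  {V : T} {x : h.obj V} {η : 𝟙_ T ⟶ V} {μ : V ⊗ V ⟶ V}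

/-- The pairing on the homology of `V` given by `μ`. -/
noncomputable def pairing (κ : ∀ X Y, h.obj X →ₗ[MvPolynomial ℕ R]
    h.obj Y →ₗ[MvPolynomial ℕ R] h.obj (X ⊗ Y)) (μ : V ⊗ V ⟶ V) :
    h.obj V →ₗ[MvPolynomial ℕ R] h.obj V →ₗ[MvPolynomial ℕ R] h.obj V :=
  (κ V V).compr₂ (h.map μ).hom

theorem pairing_unit (hκ : IsProduct h C κ g) (hη : (h.map η).hom g = x)
    (hμ : (λ_ V).inv ≫ (η ⊗ₘ 𝟙 V) ≫ μ = 𝟙 V) (y : h.obj V) : pairing κ μ x y = y := by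
  have h1 : pairing κ μ x y = (h.map μ).hom (κ V V x y) := rfl
  have h2 := hκ.nat _ _ _ _ η (𝟙 V) g y
  rw [hη, CategoryTheory.Functor.map_id] at h2
  have h3 : y = (h.map (λ_ V).hom).hom (κ (𝟙_ T) V g y) := (hκ.unit V y).symm
  have h4 : (h.map (λ_ V).inv).hom y = κ (𝟙_ T) V g y := by
    conv_lhs => rw [h3]
    rw [← ModuleCat.comp_apply, ← Functor.map_comp, Iso.hom_inv_id, CategoryTheory.Functor.map_id]
    rfl
  have h5 : (h.map ((λ_ V).inv ≫ (η ⊗ₘ 𝟙 V) ≫ μ)).hom y = y := by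
    rw [hμ, CategoryTheory.Functor.map_id]; rfl
  rw [Functor.map_comp, Functor.map_comp, ModuleCat.comp_apply, ModuleCat.comp_apply, h4, h2] at h5
  exact h5

theorem pairing_deg (hh : ∀ X Y f, IsHom (C X) (C Y) 0 (h.map f)) (hκ : IsProduct h C κ g)
    (i j : ℤ) (y : h.obj V) (hy : y ∈ (C V).deg i) (z : h.obj V) (hz : z ∈ (C V).deg j) :
    pairing κ μ y z ∈ (C V).deg (i + j) := by
  have := (hh _ _ μ).1 _ _ (hκ.deg V V i j y hy z hz)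
  rwa [add_zero] at this

/-- The multiplicative spectral sequence of `V`. -/
noncomputable def mss (hp : 1 ≤ p) (hR : S.IsZp p R) (hB : B.v = gen (p : R))
    (hh : ∀ X Y f, IsHom (C X) (C Y) 0 (h.map f)) (hκ : IsProduct h C κ g)
    (hE : IsANSS h C κ F E) (hV : IsCyclic (C V) 4 0 x) (hη : (h.map η).hom g = x)
    (hμ : (λ_ V).inv ≫ (η ⊗ₘ 𝟙 V) ≫ μ = 𝟙 V) :
    MSS (W (MvPolynomial ℕ R) ⊗[MvPolynomial ℕ R] h.obj V) (2 * (p - 1)) where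
  Z := Zk (C V)
  Bd := Bk (C V)
  E := E V
  cup := fun s => cupHom (pairing κ μ) (C V) s
  sparse := fun s t ht x hx => cochain_sparse hp hR hB hV.1 hV.2.2.1 ht (mem_Zk.1 hx).1
  cocycle := fun r s t x y hxy => by
    rw [mem_Zk, mem_Zk]
    exact hE.cocycle V r s t x y hxy
  total := fun s t x hx => hE.total V s t x (mem_Zk.1 hx)
  second := fun s t y => by rw [mem_Bk]; exact hE.second V s t y
  cobdry := fun r s t x hr hx => hE.cobdry V r s t x hr (mem_Bk.1 hx)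
  kernel := fun r s t x hr => hE.kernel V r s t x hr
  image := fun r s t y hr => hE.image V r s t y hr
  leibniz := fun r s t s' t' x y x' y' hr hxy hxy' => by
    obtain ⟨a, b, hab⟩ := hE.leibniz V V r s t s' t' x y x' y' hr hxy hxy'
    refine ⟨a, b, ?_⟩
    have := hE.nat _ _ μ _ _ _ _ _ hab
    rw [lTensor_cup, map_add] at this
    have e : ∀ (c : ℤˣ) z, LinearMap.lTensor (W (MvPolynomial ℕ R)) (h.map μ).hom (c • z) =
        c • LinearMap.lTensor (W (MvPolynomial ℕ R)) (h.map μ).hom z := fun c z => by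
      rcases Int.units_eq_one_or c with rfl | rfl <;> simp
    rw [e, e, lTensor_cup, lTensor_cup] at this
    exact this
  cup_Z := fun s t s' t' x y hx hy => cup_mem_Zk (deltaEta hκ.gen) hV.2.1 hV.2.2.1
    (pairing_unit hκ hη hμ _) (pairing_deg hh hκ) hx hy
  cup_Bd_left := fun s t s' t' x y hx hy => cup_mem_Bk_left (deltaEta hκ.gen) hV.2.1 hV.2.2.1
    (pairing_unit hκ hη hμ _) (pairing_deg hh hκ) hx hy
  cup_Bd_right := fun s t s' t' x y hx hy => cup_mem_Bk_right (deltaEta hκ.gen) hV.2.1 hV.2.2.1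
    (pairing_unit hκ hη hμ _) (pairing_deg hh hκ) hx hy
  cup_assoc := fun s s' u v w => by
    obtain ⟨u, rfl⟩ := exists_tmul hV.2.2.1 u
    obtain ⟨v, rfl⟩ := exists_tmul hV.2.2.1 v
    obtain ⟨w, rfl⟩ := exists_tmul hV.2.2.1 w
    have hpu := pairing_unit hκ hη hμ x
    simp only [cupHom_apply, cup_gen hV.2.1 hpu]
    rw [shift_iter_mul, ← Function.iterate_add_apply, mul_assoc]

end Setting

section Words

variable {p : ℕ} {A : Type} [CommRing A] {B : S.BPBP p A} {M : ModuleCat.{0} A} {D : Comod B M}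
  {x : M}

theorem Delta_X0 (hA : ∀ x y : MvPolynomial (ℕ ⊕ ℕ) A, (p : MvPolynomial (ℕ ⊕ ℕ) A) * x = p * y →
    x = y) : B.Δ (X 0) = X (Sum.inl 0) + X (Sum.inr 0) := by
  have h := B.coproduct 1
  have hl := B.log_zero
  have g0 : (gen (1 : A) 0 : MvPolynomial ℕ A) = 1 := by simp [gen]
  have g1 : (gen (1 : A) 1 : MvPolynomial ℕ A) = X 0 := by simp [gen]
  simp only [sum_range_succ, range_zero, sum_empty, zero_add, Nat.sub_zero, pow_zero, pow_one, hl,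
    mul_one, Nat.sub_self, g0, g1, map_one, one_pow, add_zero, Nat.reduceAdd, rename_X] at h
  apply hA
  have h' := add_right_cancel h
  rw [map_natCast] at h'
  rw [h']
  ring

theorem pow_mul_shift (b : W A) (n : ℕ) (w : W A) : pow B 2 b n * (shift B)^[2 * n] w =
    (fun w => b * shift B (shift B w))^[n] w := by
  induction n with
  | zero => simp [pow]
  | succ n ih =>
    have e2 : ∀ y : W A, (shift B)^[2] y = shift B (shift B y) := fun y => rfl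
    rw [Function.iterate_succ_apply', ← ih, show 2 * (n + 1) = 2 + 2 * n by ring,
      Function.iterate_add_apply, ← e2, shift_iter_mul, ← mul_assoc]
    rfl

end Words

section Permanent

variable {p : ℕ} {R : Type} [CommRing R] {B : S.BPBP p (MvPolynomial ℕ R)}
  {T : Type u} [Category.{v'} T] [Preadditive T] [HasShift T ℤ] [MonoidalCategory T]
  {h : T ⥤ ModuleCat.{0} (MvPolynomial ℕ R)} {C : ∀ X, Comod B (h.obj X)}
  {κ : ∀ X Y, h.obj X →ₗ[MvPolynomial ℕ R] h.obj Y →ₗ[MvPolynomial ℕ R] h.obj (X ⊗ Y)}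
  {g : h.obj (𝟙_ T)} {F : T → Prop}
  {E : ∀ X : T, ℕ → ℕ → ℤ → AddSubgroup (W (MvPolynomial ℕ R) ⊗[MvPolynomial ℕ R] h.obj X ×
      W (MvPolynomial ℕ R) ⊗[MvPolynomial ℕ R] h.obj X)}
  {V : T} {x : h.obj V} {η : 𝟙_ T ⟶ V} {μ : V ⊗ V ⟶ V}

theorem natCast_tf [hp : Fact p.Prime] (hR : S.IsZp p R) {σ : Type}
    (x y : MvPolynomial σ (MvPolynomial ℕ R))
    (h : (p : MvPolynomial σ (MvPolynomial ℕ R)) * x = p * y) : x = y := by
  have h1 : ∀ x y : R, (p : R) * x = p * y → x = y := fun x y h => by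
    rw [← sub_eq_zero] at h ⊢
    rw [← mul_sub] at h
    exact hR.reg _ h
  exact mul_left_cancel_poly p (mul_left_cancel_poly p h1) x y h

theorem vdeg_one (hp : 1 ≤ p) : vdeg p 1 = ((2 * (p - 1) : ℕ) : ℤ) := by
  rw [vdeg]
  push_cast [Nat.cast_sub hp]
  ring

theorem vdeg_four (hp : 1 ≤ p) : vdeg p 4 = qd p (PC.ee p) := by
  rw [vdeg, qd, PC.ee]
  push_cast [Nat.cast_sub hp]
  ring

theorem cocycle_h10 [hp : Fact p.Prime] (hR : S.IsZp p R) {M : ModuleCat.{0} (MvPolynomial ℕ R)}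
    {D : Comod B M} {x : M} {n : ℕ} (hV : IsCyclic D n 0 x) :
    IsCocycle D 1 (qd p 1) ((X (0, 0) : W (MvPolynomial ℕ R)) ⊗ₜ[MvPolynomial ℕ R] x) := by
  refine ⟨AddSubgroup.subset_closure ⟨Finsupp.single (0, 0) 1, 0, x, ?_, hV.1, ?_, rfl⟩, ?_⟩
  · intro i hi
    have := Finsupp.support_single_subset hi
    rw [Finset.mem_singleton] at this
    rw [this]
    exact Nat.one_pos
  · rw [Finsupp.sum_single_index (by simp), vdeg_one hp.out.one_lt.le, qd]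
    simp
  · rw [cobar_gen hV.2.1]
    have : cw B 1 (X (0, 0)) = 0 := by
      rw [cw, shift_X, sum_range_one, face_X_eq, Delta_X0 (natCast_tf hR)]
      simp
    rw [this, zero_tmul]

theorem p_smul [hp : Fact p.Prime] {M : ModuleCat.{0} (MvPolynomial ℕ R)} {D : Comod B M} {x : M}
    (hB : B.v = gen (p : R)) (hV : IsCyclic D 4 0 x)
    (z : W (MvPolynomial ℕ R) ⊗[MvPolynomial ℕ R] M) : (p : ℤ) • z = 0 := by
  obtain ⟨w, rfl⟩ := exists_tmul hV.2.2.1 z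
  have h1 : B.v 0 • x = 0 := by
    rw [hV.2.2.2]
    exact Ideal.subset_span ⟨0, by norm_num, rfl⟩
  have h2 : B.v 0 = ((p : ℤ) : MvPolynomial ℕ R) := by
    rw [hB]
    simp [gen]
  rw [h2, Int.cast_smul_eq_zsmul] at h1
  rw [← tmul_smul, h1, tmul_zero]

theorem v4_permanent {m : ℕ} (hm : 1 ≤ m) (hpm : p = m + 2) [hp : Fact p.Prime]
    (hR : S.IsZp p R) (hB : B.v = gen (p : R))
    (hh : ∀ X Y f, IsHom (C X) (C Y) 0 (h.map f)) (hκ : IsProduct h C κ g)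
    (hE : IsANSS h C κ F E) (hV : IsCyclic (C V) 4 0 x) (hη : (h.map η).hom g = x)
    (hμ : (λ_ V).inv ≫ (η ⊗ₘ 𝟙 V) ≫ μ = 𝟙 V) (hL : LFacts (C V) x)
    (b : W (MvPolynomial ℕ R)) (c : ℤ) (hc : ¬ (p : ℤ) ∣ c)
    (hb : IsCocycle (C (𝟙_ T)) 2 (p ^ 2 * vdeg p 1) (b ⊗ₜ g))
    (toda : ((pow B 2 b (p - 1) * (shift B)^[2 * (p - 1)] (X (0, 0))) ⊗ₜ[MvPolynomial ℕ R] g,
      (c • pow B 2 (b₁ p (MvPolynomial ℕ R)) (p ^ 2 - p + 1)) ⊗ₜ[MvPolynomial ℕ R] g) ∈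
        E (𝟙_ T) (2 * (p - 1) ^ 2 + 1) (2 * p - 1) ((p ^ 3 - p ^ 2 + 1) * vdeg p 1))
    (r : ℕ) (hr : 2 ≤ r) :
    ((MvPolynomial.C (B.v 4) : W (MvPolynomial ℕ R)) ⊗ₜ[MvPolynomial ℕ R] x, 0) ∈
      E V r 0 (vdeg p 4) := by
  have hpu := pairing_unit hκ hη hμ x
  have hs := hV.2.2.1
  have hψ := hV.2.1
  have hp1 : 1 ≤ p := hp.out.one_lt.le
  set S := mss hp1 hR hB hh hκ hE hV hη hμ with hS
  have hcup : ∀ s w w', S.cup s (w ⊗ₜ x) (w' ⊗ₜ x) = (w * (shift B)^[s] w') ⊗ₜ x :=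
    fun s w w' => cup_gen hψ hpu s w w'
  have hq : 2 * (p - 1) = 2 * m + 2 := by omega
  have hqd : ∀ N : ℕ, qd p N = ((2 * (p - 1) : ℕ) : ℤ) * (N : ℤ) := fun N => rfl
  have hP : (p : ℤ) = m + 2 := by rw [hpm]; push_cast; ring
  have hc' : IsCoprime c (p : ℤ) := by
    rw [isCoprime_comm]
    exact (Nat.prime_iff_prime_int.1 hp.out).coprime_iff_not_dvd.2 hc
  have hZ : ∀ s t z, z ∈ S.Z s t ↔ IsCocycle (C V) s t z := fun _ _ _ => mem_Zk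
  have hBd : ∀ s t z, z ∈ S.Bd s t ↔ IsCobdry (C V) s t z := fun _ _ _ => mem_Bk
  have hvan : ∀ {s : ℕ} {t : ℤ}, VanL (C V) s t → S.Van s t := fun h z hz =>
    (hBd _ _ _).2 (h z ((hZ _ _ _).1 hz))
  have hmulB : ∀ w, S.cup 2 (b₁ p (MvPolynomial ℕ R) ⊗ₜ x) (w ⊗ₜ x) = mulB B w ⊗ₜ x :=
    fun w => hcup 2 _ w
  have hmulB' : ∀ n w, (S.cup 2 (b₁ p (MvPolynomial ℕ R) ⊗ₜ x))^[n] (w ⊗ₜ x) =
      ((mulB B)^[n] w) ⊗ₜ x := by
    intro n w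
    induction n with
    | zero => rfl
    | succ n ih => rw [Function.iterate_succ_apply', ih, hmulB, Function.iterate_succ_apply']
  have hbb : (b₁ p (MvPolynomial ℕ R) ⊗ₜ x) ∈ S.Z 2 (((2 * (p - 1) : ℕ) : ℤ) * (p : ℤ)) :=
    (hZ _ _ _).2 hL.F0
  -- powers of cocycles of degree two
  have hiter : ∀ {β : W (MvPolynomial ℕ R) ⊗[MvPolynomial ℕ R] h.obj V} {τ : ℤ}, β ∈ S.Z 2 τ →
      ∀ (n : ℕ) {s : ℕ} {t : ℤ} {z}, z ∈ S.Z s t → (S.cup 2 β)^[n] z ∈ S.Z (s + 2 * n) (t + n * τ) := by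
    intro β τ hβ n s t z hz
    induction n with
    | zero => simpa using hz
    | succ n ih =>
      rw [Function.iterate_succ_apply', show s + 2 * (n + 1) = 2 + (s + 2 * n) by ring,
        show t + ((n + 1 : ℕ) : ℤ) * τ = τ + (t + n * τ) by push_cast; ring]
      exact S.cup_Z _ _ _ _ _ _ hβ ih
  -- Toda's differential, for `V`
  have toda' := hE.nat _ _ η _ _ _ _ _ toda
  rw [LinearMap.lTensor_tmul, LinearMap.lTensor_tmul, hη] at toda'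
  have e1 : p ^ 2 - p - 2 + 3 = p ^ 2 - p + 1 := by
    have : p + 2 ≤ p ^ 2 := by rw [hpm]; nlinarith
    omega
  have hpp : p + 2 ≤ p ^ 2 := by rw [hpm]; nlinarith
  have e0 : (m + 2) * (2 * (p - 1)) = 2 * (p ^ 2 - p) := by
    rw [← hpm, show p * (2 * (p - 1)) = 2 * (p * (p - 1)) by ring, Nat.mul_sub_one, sq]
  have e2 : 5 + 2 * (p ^ 2 - p - 2) = (m + 2) * (2 * (p - 1)) + 1 := by omega
  have e3 : ((2 * (p - 1) : ℕ) : ℤ) * (1 + 4 * p + 2 * p ^ 2) +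
      ((p ^ 2 - p - 2 : ℕ) : ℤ) * (((2 * (p - 1) : ℕ) : ℤ) * (p : ℤ)) =
      ((2 * (p - 1) : ℕ) : ℤ) * (PC.ee p + p) := by
    have h5 : ((p ^ 2 - p - 2 : ℕ) : ℤ) = (p : ℤ) ^ 2 - p - 2 := by
      rw [Nat.cast_sub (by omega), Nat.cast_sub (by omega)]
      push_cast; ring
    rw [h5, PC.ee]
    push_cast
    ring
  have hz : ∀ w ∈ S.Z 5 (((2 * (p - 1) : ℕ) : ℤ) * (1 + 4 * p + 2 * p ^ 2)),
      (S.cup 2 (b₁ p (MvPolynomial ℕ R) ⊗ₜ x))^[p ^ 2 - p - 2] w ∈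
      S.Z ((m + 2) * (2 * (p - 1)) + 1) (((2 * (p - 1) : ℕ) : ℤ) * (PC.ee p + p)) := by
    intro w hw
    have := hiter hbb (p ^ 2 - p - 2) hw
    rwa [e2, e3] at this
  have F2 : ∀ z ∈ S.Z (2 * (p - 1) + 1) (((2 * (p - 1) : ℕ) : ℤ) * (PC.ee p + 1)),
      ∀ y ∈ S.Z (2 * (p - 1) + 2) (((2 * (p - 1) : ℕ) : ℤ) * ((p : ℤ) ^ 4 + 1)),
      S.cup 1 (hh4 B ⊗ₜ x) z + S.cup (2 * (p - 1) + 2) y (MvPolynomial.C (B.v 4) ⊗ₜ x) ∈
        S.Bd (2 * (p - 1) + 2) (((2 * (p - 1) : ℕ) : ℤ) * (PC.ee p + 1 + (p : ℤ) ^ 4)) →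
        z ∈ S.Bd (2 * (p - 1) + 1) (((2 * (p - 1) : ℕ) : ℤ) * (PC.ee p + 1)) := by
    intro z hz y hy hzy
    obtain ⟨z, rfl⟩ := exists_tmul hs z
    obtain ⟨y, rfl⟩ := exists_tmul hs y
    rw [hcup, hcup, ← add_tmul, hBd] at hzy
    rw [hZ] at hz hy
    rw [hBd]
    have := hL.F2 z y (by simpa [hqd] using hz) (by simpa [hqd] using hy) (by simpa [hqd] using hzy)
    simpa [hqd] using this
  have hb' : (b ⊗ₜ x) ∈ S.Z 2 (p ^ 2 * vdeg p 1) := by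
    obtain ⟨y, hy⟩ := hE.total _ _ _ _ hb
    have := hE.nat _ _ η _ _ _ _ _ hy
    rw [LinearMap.lTensor_tmul, hη] at this
    exact (hZ _ _ _).2 (hE.cocycle _ _ _ _ _ _ this).1
  have e4 : 2 * (p - 1) ^ 2 + 1 = (m + 1) * (2 * (p - 1)) + 1 := by
    rw [show p - 1 = m + 1 by omega]; ring
  have e5 : 2 * p - 1 = 2 * m + 3 := by omega
  have e6 : ((p : ℤ) ^ 3 - p ^ 2 + 1) * vdeg p 1 = ((2 * (p - 1) : ℕ) : ℤ) * (p ^ 3 - p ^ 2 + 1) := by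
    rw [vdeg_one hp1]; ring
  rw [e4, e5, e6] at toda'
  have hYw : ∀ w ∈ S.Z 5 (((2 * (p - 1) : ℕ) : ℤ) * (1 + 4 * p + 2 * p ^ 2)),
      S.cup (2 * m + 3) ((pow B 2 b (p - 1) * (shift B)^[2 * (p - 1)] (X (0, 0))) ⊗ₜ x) w ∈
        S.Bd (2 * (p - 1) + 6)
          (((2 * (p - 1) : ℕ) : ℤ) * ((p : ℤ) ^ 3 - p ^ 2 + 1 + (1 + 4 * p + 2 * p ^ 2))) := by
    intro w hw
    have h1 := S.cup_Z _ _ _ _ _ _ ((hZ _ _ _).2 (cocycle_h10 hR hV)) hw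
    have h2 : S.cup 1 (X (0, 0) ⊗ₜ x) w ∈ S.Bd 6 (qd p (2 + 4 * p + 2 * p ^ 2)) := by
      refine hvan hL.F4' _ ?_
      rw [show (6 : ℕ) = 1 + 5 from rfl]
      convert h1 using 1
      rw [hqd, hqd]; push_cast; ring
    have h3 : ∀ n : ℕ, (S.cup 2 (b ⊗ₜ x))^[n] (S.cup 1 (X (0, 0) ⊗ₜ x) w) ∈
        S.Bd (6 + 2 * n) (qd p (2 + 4 * p + 2 * p ^ 2) + n * (p ^ 2 * vdeg p 1)) := by
      intro n
      induction n with
      | zero => simpa using h2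
      | succ n ih =>
        rw [Function.iterate_succ_apply', show 6 + 2 * (n + 1) = 2 + (6 + 2 * n) by ring,
          show qd p (2 + 4 * p + 2 * p ^ 2) + ((n + 1 : ℕ) : ℤ) * (p ^ 2 * vdeg p 1) =
            p ^ 2 * vdeg p 1 + (qd p (2 + 4 * p + 2 * p ^ 2) + n * (p ^ 2 * vdeg p 1)) by
            push_cast; ring]
        exact S.cup_Bd_right _ _ _ _ _ _ hb' ih
    have h4 := h3 (p - 1)
    rw [show 6 + 2 * (p - 1) = 2 * (p - 1) + 6 by ring] at h4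
    have h5 : qd p (2 + 4 * p + 2 * p ^ 2) + ((p - 1 : ℕ) : ℤ) * (p ^ 2 * vdeg p 1) =
        ((2 * (p - 1) : ℕ) : ℤ) * ((p : ℤ) ^ 3 - p ^ 2 + 1 + (1 + 4 * p + 2 * p ^ 2)) := by
      rw [hqd, vdeg_one hp1, Nat.cast_sub hp1]; push_cast; ring
    rw [h5] at h4
    obtain ⟨w, rfl⟩ := exists_tmul hs w
    have h6 : ∀ n (u : W (MvPolynomial ℕ R)), (S.cup 2 (b ⊗ₜ x))^[n] (u ⊗ₜ x) =
        ((fun w => b * shift B (shift B w))^[n] u) ⊗ₜ x := by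
      intro n u
      induction n with
      | zero => rfl
      | succ n ih => rw [Function.iterate_succ_apply', ih, Function.iterate_succ_apply', hcup]; rfl
    rw [hcup, h6, ← pow_mul_shift, shift_iter_mul, ← mul_assoc] at h4
    rw [hcup, show 2 * m + 3 = 2 * (p - 1) + 1 by omega, Function.iterate_add_apply]
    exact h4
  have hBw : ∀ w, S.cup (2 * m + 3 + ((m + 1) * (2 * (p - 1)) + 1))
      ((c • pow B 2 (b₁ p (MvPolynomial ℕ R)) (p ^ 2 - p + 1)) ⊗ₜ x) w =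
      c • (S.cup 2 (b₁ p (MvPolynomial ℕ R) ⊗ₜ x))^[3]
        ((S.cup 2 (b₁ p (MvPolynomial ℕ R) ⊗ₜ x))^[p ^ 2 - p - 2] w) := by
    intro w
    obtain ⟨w, rfl⟩ := exists_tmul hs w
    rw [← Function.iterate_add_apply, add_comm 3, e1, hmulB', hcup]
    have e7 : 2 * m + 3 + ((m + 1) * (2 * (p - 1)) + 1) = 2 * (p ^ 2 - p + 1) := by
      have : (m + 2) * (2 * (p - 1)) = (m + 1) * (2 * (p - 1)) + 2 * (p - 1) := by ring
      omega
    rw [e7, smul_mul_assoc, pow_mul_shift, zsmul_tmul]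
    rfl
  have hhv : S.cup 1 (hh4 B ⊗ₜ x) (MvPolynomial.C (B.v 4) ⊗ₜ x) ∈
      S.Bd 1 (((2 * (p - 1) : ℕ) : ℤ) * (PC.ee p + (p : ℤ) ^ 4)) := by
    rw [hcup, hBd]
    simpa [hqd] using hL.F1'
  have F3 : ∀ k : ℕ, 2 ≤ k → k ≠ m + 2 →
      S.Van (k * (2 * (p - 1)) + 1) (((2 * (p - 1) : ℕ) : ℤ) * (PC.ee p + k)) := by
    intro k h1 h2
    have := hvan (hL.F3 k h1 (by omega))
    simpa [hqd] using this
  have F4 : ∀ y ∈ S.Z ((m + 2) * (2 * (p - 1)) + 1) (((2 * (p - 1) : ℕ) : ℤ) * (PC.ee p + p)),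
      ∃ w ∈ S.Z 5 (((2 * (p - 1) : ℕ) : ℤ) * (1 + 4 * p + 2 * p ^ 2)),
      y - (S.cup 2 (b₁ p (MvPolynomial ℕ R) ⊗ₜ x))^[p ^ 2 - p - 2] w ∈
        S.Bd ((m + 2) * (2 * (p - 1)) + 1) (((2 * (p - 1) : ℕ) : ℤ) * (PC.ee p + p)) := by
    intro y hy
    obtain ⟨y, rfl⟩ := exists_tmul hs y
    rw [hZ, ← hpm] at hy
    obtain ⟨w, hw, hyw⟩ := hL.F4 y (by simpa [hqd] using hy)
    refine ⟨w ⊗ₜ x, (hZ _ _ _).2 (by simpa [hqd] using hw), ?_⟩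
    rw [hmulB', ← sub_tmul, hBd, ← hpm]
    simpa [hqd] using hyw
  have F5 : ∀ k : ℕ, 1 ≤ k → k ≤ m + 1 → S.Van (5 + (k * (2 * (p - 1)) + 1))
      (((2 * (p - 1) : ℕ) : ℤ) * (1 + 4 * p + 2 * p ^ 2 + k)) := by
    intro k h1 h2
    have := hvan (hL.F5 k h1 (by omega))
    rw [show 5 + (k * (2 * (p - 1)) + 1) = k * (2 * (p - 1)) + 6 by ring]
    simpa [hqd] using this
  have F6 : ∀ j : ℕ, 3 ≤ j → j ≤ m + 1 → S.Van (j * (2 * (p - 1)) + 6)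
      (((2 * (p - 1) : ℕ) : ℤ) * (PC.ee p + 3 * p + j)) := by
    intro k h1 h2
    have := hvan (hL.F6 k h1 (by omega))
    simpa [hqd] using this
  have F6' : ∀ y ∈ S.Z (2 * (2 * (p - 1)) + 6) (((2 * (p - 1) : ℕ) : ℤ) * (PC.ee p + 3 * p + 2)),
      ∃ T ∈ S.Z (2 * (2 * (p - 1))) (((2 * (p - 1) : ℕ) : ℤ) * (PC.ee p + 2)),
      y - (S.cup 2 (b₁ p (MvPolynomial ℕ R) ⊗ₜ x))^[3] T ∈
        S.Bd (2 * (2 * (p - 1)) + 6) (((2 * (p - 1) : ℕ) : ℤ) * (PC.ee p + 3 * p + 2)) := by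
    intro y hy
    obtain ⟨y, rfl⟩ := exists_tmul hs y
    rw [hZ] at hy
    obtain ⟨w, hw, hyw⟩ := hL.F6' y (by simpa [hqd] using hy)
    refine ⟨w ⊗ₜ x, (hZ _ _ _).2 (by simpa [hqd] using hw), ?_⟩
    rw [hmulB', ← sub_tmul, hBd]
    simpa [hqd] using hyw
  have F7 : ∀ y ∈ S.Z ((m + 2) * (2 * (p - 1)) + 1) (((2 * (p - 1) : ℕ) : ℤ) * (PC.ee p + p)),
      (S.cup 2 (b₁ p (MvPolynomial ℕ R) ⊗ₜ x))^[3] y ∈ S.Bd ((m + 2) * (2 * (p - 1)) + 7)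
        (((2 * (p - 1) : ℕ) : ℤ) * (PC.ee p + 4 * p)) →
      y ∈ S.Bd ((m + 2) * (2 * (p - 1)) + 1) (((2 * (p - 1) : ℕ) : ℤ) * (PC.ee p + p)) := by
    intro y hy hy3
    obtain ⟨y, rfl⟩ := exists_tmul hs y
    rw [hZ, ← hpm] at hy
    rw [hmulB', hBd, ← hpm] at hy3
    rw [hBd, ← hpm]
    have := hL.F7 y (by simpa [hqd] using hy) (by simpa [hqd] using hy3)
    simpa [hqd] using this
  have F8 : ∀ k : ℕ, 1 ≤ k → k ≤ m → S.Van (2 + (k * (2 * (p - 1)) + 1))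
      (((2 * (p - 1) : ℕ) : ℤ) * (p + k)) := by
    intro k h1 h2
    have := hvan (hL.F8 k h1 (by omega))
    rw [show 2 + (k * (2 * (p - 1)) + 1) = k * (2 * (p - 1)) + 3 by ring]
    simpa [hqd] using this
  have key := S.permanent (m := m) hm hq (e := (PC.ee p : ℤ)) (f := (p : ℤ) ^ 4)
    (N := 1 + 4 * p + 2 * p ^ 2) (A := p ^ 3 - p ^ 2 + 1) (P := p) hP
    (by rw [PC.ee]; push_cast; ring) hc'
    ((hZ _ _ _).2 (by simpa [hqd] using hL.F0')) ((hZ _ _ _).2 (by simpa [hqd] using hL.F1)) hhv F2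
    (p_smul hB hV) hbb hz toda' hYw hBw F3 F4 F5 F6 F6' F7 F8 r hr
  rw [vdeg_four hp1]
  exact key

end Permanent

section Final

variable {p : ℕ} [hp : Fact p.Prime] {R : Type} [CommRing R] {B : S.BPBP p (MvPolynomial ℕ R)}
  {T : Type u} [Category.{v'} T] [HasZeroObject T] [Preadditive T]
  [HasShift T ℤ] [∀ n : ℤ, (shiftFunctor T n).Additive] [Pretriangulated T] [IsTriangulated T]
  [HasCountableCoproducts T] [MonoidalCategory T]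
  {h : T ⥤ ModuleCat.{0} (MvPolynomial ℕ R)} [h.IsHomological]
  [PreservesColimitsOfShape (Discrete ℕ) h] {C : ∀ X, Comod B (h.obj X)}
  {κ : ∀ X Y, h.obj X →ₗ[MvPolynomial ℕ R] h.obj Y →ₗ[MvPolynomial ℕ R] h.obj (X ⊗ Y)}
  {g : h.obj (𝟙_ T)}
  {E : ∀ X : T, ℕ → ℕ → ℤ → AddSubgroup (W (MvPolynomial ℕ R) ⊗[MvPolynomial ℕ R] h.obj X ×
      W (MvPolynomial ℕ R) ⊗[MvPolynomial ℕ R] h.obj X)}
  {V : T} {x : h.obj V} {η : 𝟙_ T ⟶ V} {μ : V ⊗ V ⟶ V}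

omit [IsTriangulated T] [HasCountableCoproducts T] hp in
theorem isFin_iff (X : T) : IsFin p X ↔ S.IsFinitePLocal p (𝟙_ T) X := Iff.rfl

theorem one_tmul_inj {A : Type} [CommRing A] {M : ModuleCat.{0} A} {y z : M}
    (h : (1 : W A) ⊗ₜ[A] y = 1 ⊗ₜ z) : y = z := by
  let ε : W A →ₗ[A] A := (aeval (fun _ => (0 : A)) : W A →ₐ[A] A).toLinearMap
  have h1 := congrArg (fun z => TensorProduct.lid A M (LinearMap.rTensor M ε z)) h
  have h2 : ε 1 = 1 := map_one (aeval (fun _ => (0 : A)) : W A →ₐ[A] A)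
  simpa [h2] using h1

theorem exists_V4_of_lfacts (hp5 : 5 ≤ p) (hR : S.IsZp p R) (hB : B.v = gen (p : R))
    (hh : IsBPHomology (𝟙_ T) h C) (hκ : IsProduct h C κ g) (hE : IsANSS h C κ (IsFin p) E)
    (hF : IsFin p V) (hV : IsCyclic (C V) 4 0 x) (hη : (h.map η).hom g = x)
    (hμ : (λ_ V).inv ≫ (η ⊗ₘ 𝟙 V) ≫ μ = 𝟙 V) (hL : LFacts (C V) x)
    (b : W (MvPolynomial ℕ R)) (c : ℤ) (hc : ¬ (p : ℤ) ∣ c)
    (hb : IsCocycle (C (𝟙_ T)) 2 (p ^ 2 * vdeg p 1) (b ⊗ₜ g))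
    (toda : ((pow B 2 b (p - 1) * (shift B)^[2 * (p - 1)] (X (0, 0))) ⊗ₜ[MvPolynomial ℕ R] g,
      (c • pow B 2 (b₁ p (MvPolynomial ℕ R)) (p ^ 2 - p + 1)) ⊗ₜ[MvPolynomial ℕ R] g) ∈
        E (𝟙_ T) (2 * (p - 1) ^ 2 + 1) (2 * p - 1) ((p ^ 3 - p ^ 2 + 1) * vdeg p 1)) :
    ∃ (V₄ : T) (y : h.obj V₄), IsFin p V₄ ∧ IsCyclic (C V₄) 5 0 y := by
  have hperm := v4_permanent (m := p - 2) (by omega) (by omega) hR hB hh.hom hκ hE hV hη hμ hL b c hc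
    hb toda
  have hp1 : 1 ≤ p := hp.out.one_lt.le
  obtain ⟨f, g', hg', hfg⟩ := hE.edge V (vdeg p 4) _ hF
    (by rw [vdeg_four hp1]; exact hL.F0') hperm
  have hv : B.v 4 • x = (h.map f).hom g' := by
    apply one_tmul_inj
    rw [← hfg, tmul_smul, smul_tmul', smul_eq_C_mul, mul_one]
  -- the object `S[t] ⊗ V`
  let U := (𝟙_ T)⟦vdeg p 4⟧ ⊗ V
  have hUF : S.IsFinitePLocal p (𝟙_ T) U := by
    rw [isFinitePLocal_iff']
    obtain ⟨⟨e⟩, -⟩ := hκ.sphere (vdeg p 4) V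
    have h1 := ((isFinitePLocal_iff' p (𝟙_ T) V).1 hF).shift (vdeg p 4)
    exact h1.of_retract e.hom e.inv e.hom_inv_id
  have hbij := (hκ.sphere (vdeg p 4) V).2 g' hg'
  have hU : IsCyclic (C U) 4 (vdeg p 4) (κ _ V g' x) := by
    refine ⟨?_, ?_, ?_, ?_⟩
    · have := hκ.deg _ V _ _ g' hg'.1 x hV.1
      rwa [add_zero] at this
    · rw [hκ.coaction, hg'.2.1, hV.2.1, map₂_apply_tmul, TensorProduct.map_tmul,
        LinearMap.mul_apply', one_mul]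
    · intro z
      obtain ⟨y, rfl⟩ := hbij.2 z
      obtain ⟨a, rfl⟩ := hV.2.2.1 y
      exact ⟨a, by rw [map_smul]⟩
    · intro a
      rw [← map_smul, ← map_zero (κ _ V g'), hbij.1.eq_iff]
      exact hV.2.2.2 a
  let φ : U ⟶ V := (f ⊗ₘ 𝟙 V) ≫ μ
  have hφ : (h.map φ).hom (κ _ V g' x) = B.v 4 • x := by
    have h1 := hκ.nat _ _ _ _ f (𝟙 V) g' x
    rw [CategoryTheory.Functor.map_id] at h1
    change (h.map ((f ⊗ₘ 𝟙 V) ≫ μ)).hom _ = _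
    rw [Functor.map_comp, ModuleCat.comp_apply, h1, ← hv]
    have h2 := pairing_unit hκ hη hμ x
    have h3 : (h.map μ).hom (κ V V (B.v 4 • x) x) = B.v 4 • pairing κ μ x x := by
      rw [map_smul, LinearMap.smul_apply, map_smul]
      rfl
    rw [h2] at h3
    exact h3
  obtain ⟨Z, k, l, hT⟩ := Pretriangulated.distinguished_cocone_triangle φ
  obtain ⟨h7, y, h8⟩ := of_cofibre hR hB hh hT hF hUF hV hU hφ
  exact ⟨Z, y, h7, h8⟩

end Final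

end Vale.Agent.P257.Q
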