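import Vale.Agent.P257.S.Defs
import Vale.Agent.P257.Q.PDefs

/-! Block A: the right unit and the coproduct of `BP_*BP` modulo powers of the ideal
`(p, v_1, v_2, ...)` and modulo `(p, v_1, v_2, v_3)`, and their degrees. -/

namespace Vale.Agent.P257.Q.Eta

open MvPolynomial Finset Vale.Agent.P257.S

section Basic

theorem poly_p0 {S : Type} [CommRing S] {p : ℕ} (h : ∀ x : S, (p : S) * x = 0 → x = 0)
    {σ : Type} (f : MvPolynomial σ S) (hf : (p : MvPolynomial σ S) * f = 0) : f = 0 := by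
  ext e
  rw [coeff_zero]
  apply h
  have h1 := congrArg (coeff e) hf
  rw [← map_natCast (C : S →+* MvPolynomial σ S), coeff_C_mul, coeff_zero] at h1
  exact h1

theorem cancel_pow {S : Type} [CommRing S] {p : ℕ} (h : ∀ x : S, (p : S) * x = 0 → x = 0) (n : ℕ)
    {x y : S} (hxy : (p : S) ^ n * x = (p : S) ^ n * y) : x = y := by
  induction n with
  | zero => simpa using hxy
  | succ n ih =>
    apply ih
    rw [← sub_eq_zero]
    apply h
    rw [mul_sub, ← mul_assoc, ← mul_assoc, ← pow_succ', hxy, sub_self]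

theorem dvd_of_dvd_pow_mul {S : Type} [CommRing S] {p : ℕ}
    (h : ∀ x : S, (p : S) * x = 0 → x = 0) {m n : ℕ} (hnm : n ≤ m) {c : S}
    (hd : (p : S) ^ m ∣ (p : S) ^ n * c) : (p : S) ^ (m - n) ∣ c := by
  obtain ⟨d, hd⟩ := hd
  refine ⟨d, cancel_pow h n ?_⟩
  rw [hd, ← mul_assoc, ← pow_add, Nat.add_sub_cancel' hnm]

/-- Freshman's dream modulo `p`. -/
theorem frob {S : Type} [CommRing S] {p : ℕ} [hp : Fact p.Prime] {ι : Type} (s : Finset ι)
    (x : S) (f : ι → S) (n : ℕ) (h : (p : S) ∣ x - ∑ j ∈ s, f j) :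
    (p : S) ∣ x ^ p ^ n - ∑ j ∈ s, f j ^ p ^ n := by
  by_cases hu : (p : S) ∈ nonunits S
  · have := CharP.quotient S p hu
    rw [← Ideal.mem_span_singleton, ← Ideal.Quotient.eq_zero_iff_mem] at h ⊢
    rw [map_sub, sub_eq_zero] at h ⊢
    rw [map_pow, h, map_sum, sum_pow_char_pow, map_sum]
    simp
  · have h1 : IsUnit (p : S) := by simpa [mem_nonunits_iff] using hu
    exact h1.dvd

end Basic


section Scale

variable (p : ℕ) (R : Type) [CommRing R]

/-- The substitution `v_i ↦ p v_i` (`i ≥ 1`). -/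
noncomputable def phi : MvPolynomial ℕ R →+* MvPolynomial ℕ R :=
  (aeval fun i => C (p : R) * X i : MvPolynomial ℕ R →ₐ[R] MvPolynomial ℕ R).toRingHom

@[simp] theorem phi_X (i : ℕ) : phi p R (X i) = (p : MvPolynomial ℕ R) * X i := by
  simp [phi]

@[simp] theorem phi_C (c : R) : phi p R (C c) = C c := by
  simp [phi]

theorem phi_monomial (a : ℕ →₀ ℕ) (c : R) :
    phi p R (monomial a c) = (p : MvPolynomial ℕ R) ^ a.degree * monomial a c := by
  rw [monomial_eq, map_mul, phi_C, mul_left_comm]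
  congr 1
  rw [Finsupp.prod, map_prod]
  simp only [map_pow, phi_X, mul_pow, Finset.prod_mul_distrib]
  congr 1
  rw [Finset.prod_pow_eq_pow_sum]
  rfl

theorem coeff_phi (a : ℕ →₀ ℕ) (g : MvPolynomial ℕ R) :
    coeff a (phi p R g) = (p : R) ^ a.degree * coeff a g := by
  induction g using MvPolynomial.induction_on' with
  | monomial b c =>
    rw [phi_monomial, ← map_natCast (C : R →+* MvPolynomial ℕ R), ← map_pow, coeff_C_mul,
      coeff_monomial]
    split_ifs with h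
    · rw [h]
    · simp
  | add f g hf hg => rw [map_add, coeff_add, hf, hg, coeff_add, mul_add]

variable {p R}

/-- The ideal `(p, v_1, v_2, ...)` of `BP_*[τ]`. -/
noncomputable def J (B : BPBP p (MvPolynomial ℕ R)) (τ : Type) :
    Ideal (MvPolynomial τ (MvPolynomial ℕ R)) := Ideal.span (Set.range fun i => C (B.v i))

variable {B : BPBP p (MvPolynomial ℕ R)} (hB : B.v = gen (p : R)) {τ : Type}

include hB

theorem v_zero : B.v 0 = (p : MvPolynomial ℕ R) := by
  rw [hB]; simp [gen]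

theorem v_succ (i : ℕ) : B.v (i + 1) = X i := by
  rw [hB]; simp [gen]

theorem p_mem_J : (p : MvPolynomial τ (MvPolynomial ℕ R)) ∈ J B τ := by
  refine Ideal.subset_span ⟨0, ?_⟩
  simp [v_zero hB]

theorem X_mem_J (i : ℕ) : (C (X i) : MvPolynomial τ (MvPolynomial ℕ R)) ∈ J B τ :=
  Ideal.subset_span ⟨i + 1, by simp [v_succ hB]⟩

theorem monomial_mem_J (a : ℕ →₀ ℕ) :
    (C (monomial a 1) : MvPolynomial τ (MvPolynomial ℕ R)) ∈ J B τ ^ a.degree := by
  induction a using Finsupp.induction_linear with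
  | zero => simp
  | add a b ha hb =>
    rw [map_add Finsupp.degree, pow_add]
    rw [show (monomial (a + b) (1 : R)) = monomial a 1 * monomial b 1 by
      rw [monomial_mul, one_mul], map_mul]
    exact Ideal.mul_mem_mul ha hb
  | single i n =>
    rw [Finsupp.degree_single, ← X_pow_eq_monomial, map_pow]
    exact Ideal.pow_mem_pow (X_mem_J hB i) n

theorem mem_J_of_dvd (hp0 : ∀ x : R, (p : R) * x = 0 → x = 0) (m : ℕ)
    (f : MvPolynomial τ (MvPolynomial ℕ R))
    (h : (p : MvPolynomial τ (MvPolynomial ℕ R)) ^ m ∣ map (phi p R) f) : f ∈ J B τ ^ m := by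
  obtain ⟨g, hg⟩ := h
  rw [f.as_sum]
  refine Ideal.sum_mem _ fun e _ => ?_
  rw [show monomial e (coeff e f) = C (coeff e f) * monomial e 1 by
    rw [C_mul_monomial, mul_one]]
  refine Ideal.mul_mem_right _ _ ?_
  rw [(coeff e f).as_sum, map_sum]
  refine Ideal.sum_mem _ fun a _ => ?_
  have h1 : (p : R) ^ a.degree * coeff a (coeff e f) = (p : R) ^ m * coeff a (coeff e g) := by
    rw [← coeff_phi, ← coeff_map, hg]
    rw [← map_natCast (C : MvPolynomial ℕ R →+* MvPolynomial τ (MvPolynomial ℕ R)), ← map_pow,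
      coeff_C_mul, ← map_natCast (C : R →+* MvPolynomial ℕ R), ← map_pow, coeff_C_mul]
  rw [show monomial a (coeff a (coeff e f)) = C (coeff a (coeff e f)) * monomial a 1 by
    rw [C_mul_monomial, mul_one], map_mul]
  rcases le_total m a.degree with hm | hm
  · exact Ideal.mul_mem_left _ _ (Ideal.pow_le_pow_right hm (monomial_mem_J hB a))
  · obtain ⟨d, hd⟩ := dvd_of_dvd_pow_mul hp0 hm ⟨_, h1⟩
    have h2 : (p : MvPolynomial τ (MvPolynomial ℕ R)) ^ (m - a.degree) *
        C (monomial a 1) ∈ J B τ ^ m := by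
      have := Ideal.mul_mem_mul (Ideal.pow_mem_pow (p_mem_J hB (τ := τ)) (m - a.degree))
        (monomial_mem_J hB (τ := τ) a)
      rwa [← pow_add, Nat.sub_add_cancel hm] at this
    rw [hd]
    have := Ideal.mul_mem_left _ (C (C d)) h2
    convert this using 1
    simp only [map_mul, map_pow, map_natCast]
    ring

end Scale

section Log

variable (p : ℕ) (R : Type) [CommRing R]

/-- `p ^ (-n)` times the image of `l n` under `v_i ↦ p v_i`. -/
noncomputable def lam : ℕ → MvPolynomial ℕ R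
  | 0 => 1
  | n + 1 => ∑ i : Fin (n + 1), (p : MvPolynomial ℕ R) ^ (p ^ i.1 - 1) * lam i.1 *
      X (n - i.1) ^ p ^ i.1
decreasing_by exact i.2

theorem lam_zero : lam p R 0 = 1 := by rw [lam]

theorem lam_succ (n : ℕ) : lam p R (n + 1) = ∑ i ∈ range (n + 1),
    (p : MvPolynomial ℕ R) ^ (p ^ i - 1) * lam p R i * X (n - i) ^ p ^ i := by
  rw [lam, ← Fin.sum_univ_eq_sum_range fun i => (p : MvPolynomial ℕ R) ^ (p ^ i - 1) *
    lam p R i * X (n - i) ^ p ^ i]

theorem lam_sub [hp : Fact p.Prime] (n : ℕ) :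
    (p : MvPolynomial ℕ R) ∣ lam p R (n + 1) - X n := by
  rw [lam_succ, sum_range_succ']
  simp only [pow_zero, lam_zero, Nat.sub_self, pow_one, mul_one, one_mul, Nat.sub_zero,
    add_sub_cancel_right]
  refine Finset.dvd_sum fun i _ => ?_
  refine Dvd.dvd.mul_right (Dvd.dvd.mul_right (dvd_pow_self _ ?_) _) _
  have h1 : 1 < p ^ (i + 1) := Nat.one_lt_pow (by omega) hp.out.one_lt
  omega

variable {p R} {B : BPBP p (MvPolynomial ℕ R)} (hB : B.v = gen (p : R))

include hB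

theorem phi_v_succ (n : ℕ) : phi p R (B.v (n + 1)) = (p : MvPolynomial ℕ R) * X n := by
  rw [v_succ hB, phi_X]

theorem phi_l [hp : Fact p.Prime] (n : ℕ) : phi p R (B.l n) = (p : MvPolynomial ℕ R) ^ n * lam p R n := by
  induction n using Nat.strong_induction_on with
  | _ n ih =>
    rcases n with _ | n
    · simp [B.log_zero, lam_zero]
    · rw [B.log_succ, map_sum, lam_succ, mul_sum]
      refine sum_congr rfl fun i hi => ?_
      have hi' : i < n + 1 := mem_range.1 hi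
      rw [map_mul, map_mul, ih i hi', map_pow, map_pow, map_natCast,
        show n + 1 - i = (n - i) + 1 by omega, phi_v_succ hB, mul_pow]
      have h1 : 1 ≤ p ^ i := Nat.one_le_pow _ _ hp.out.pos
      have h2 : (p : MvPolynomial ℕ R) ^ (n - i) * (p : MvPolynomial ℕ R) ^ i *
          (p : MvPolynomial ℕ R) ^ (p ^ i) =
          (p : MvPolynomial ℕ R) ^ (n + 1) * (p : MvPolynomial ℕ R) ^ (p ^ i - 1) := by
        rw [← pow_add, ← pow_add, ← pow_add]
        congr 1
        omega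
      linear_combination (lam p R i * X (n - i) ^ p ^ i) * h2

end Log

section EtaR

variable {p : ℕ} {R : Type} [CommRing R]

theorem map_gen_one {S T : Type} [CommRing S] [CommRing T] (f : S →+* T) (n : ℕ) :
    map f (gen (1 : S) n) = gen 1 n := by
  unfold gen
  split_ifs <;> simp

/-- `p ^ (-n)` times the image of `η (l n)` under `v_i ↦ p v_i`. -/
noncomputable def Ew (p : ℕ) (R : Type) [CommRing R] (n : ℕ) :
    MvPolynomial ℕ (MvPolynomial ℕ R) :=
  ∑ i ∈ range (n + 1), C (lam p R i) * gen 1 (n - i) ^ p ^ i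

theorem Ew_zero : Ew p R 0 = 1 := by simp [Ew, lam_zero, gen]

variable {B : BPBP p (MvPolynomial ℕ R)} (hB : B.v = gen (p : R))

include hB

theorem phi_eta_l [Fact p.Prime] (n : ℕ) :
    map (phi p R) (B.η (B.l n)) = (p : MvPolynomial ℕ (MvPolynomial ℕ R)) ^ n * Ew p R n := by
  rw [B.unit, map_sum, Ew, mul_sum]
  refine sum_congr rfl fun i hi => ?_
  have hi' : i < n + 1 := mem_range.1 hi
  rw [map_mul, map_pow, map_gen_one, map_C, map_mul, map_pow, map_natCast, phi_l hB]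
  simp only [map_mul, map_pow, map_natCast]
  rw [← mul_assoc, ← pow_add, Nat.sub_add_cancel (by omega)]
  ring

omit hB in
theorem pcancel₂ (hp0 : ∀ x : R, (p : R) * x = 0 → x = 0) {τ : Type} (n : ℕ)
    {x y : MvPolynomial τ (MvPolynomial ℕ R)}
    (h : (p : MvPolynomial τ (MvPolynomial ℕ R)) ^ n * x = (p : MvPolynomial τ (MvPolynomial ℕ R)) ^ n * y) :
    x = y :=
  cancel_pow (fun x => poly_p0 (fun x => poly_p0 hp0 x) x) n h

theorem eta_rec [hp : Fact p.Prime] (hp0 : ∀ x : R, (p : R) * x = 0 → x = 0) (n : ℕ) :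
    (p : MvPolynomial ℕ (MvPolynomial ℕ R)) * Ew p R (n + 1) = ∑ i ∈ range (n + 1),
      Ew p R i * map (phi p R) (B.η (B.v (n + 1 - i))) ^ p ^ i := by
  refine pcancel₂ hp0 n ?_
  rw [← mul_assoc, ← pow_succ, ← phi_eta_l hB, B.log_succ, map_sum, map_sum, mul_sum]
  refine sum_congr rfl fun i hi => ?_
  have hi' : i < n + 1 := mem_range.1 hi
  simp only [map_mul, map_pow, map_natCast]
  rw [phi_eta_l hB, ← mul_assoc, ← pow_add, Nat.sub_add_cancel (by omega)]
  ring

theorem phi_eta_v [hp : Fact p.Prime] (hp0 : ∀ x : R, (p : R) * x = 0 → x = 0) (n : ℕ) :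
    (p : MvPolynomial ℕ (MvPolynomial ℕ R)) ^ 2 ∣
      map (phi p R) (B.η (B.v (n + 1))) - (p : MvPolynomial ℕ (MvPolynomial ℕ R)) * Ew p R (n + 1) := by
  induction n using Nat.strong_induction_on with
  | _ n ih =>
    rw [eta_rec hB hp0, sum_range_succ', sub_add_eq_sub_sub_swap]
    simp only [Ew_zero, Nat.sub_zero, pow_zero, pow_one, one_mul, sub_self, zero_sub]
    refine (dvd_neg (α := MvPolynomial ℕ (MvPolynomial ℕ R))).2
      (Finset.dvd_sum fun i hi => ?_)
    have hi' : i < n := mem_range.1 hi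
    refine Dvd.dvd.mul_left ?_ _
    have h1 : (p : MvPolynomial ℕ (MvPolynomial ℕ R)) ∣
        map (phi p R) (B.η (B.v (n + 1 - (i + 1)))) := by
      have h2 := ih (n - 1 - i) (by omega)
      rw [show n - 1 - i + 1 = n + 1 - (i + 1) by omega] at h2
      have h3 := dvd_trans (dvd_pow_self _ two_ne_zero) h2
      exact (dvd_sub_left (dvd_mul_right _ _)).1 h3
    have h4 : 2 ≤ p ^ (i + 1) := by
      have := Nat.one_lt_pow (n := i + 1) (by omega) hp.out.one_lt
      omega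
    exact dvd_trans (pow_dvd_pow_of_dvd h1 2) (pow_dvd_pow _ h4)

/-- N2. -/
theorem eta_v_mem [hp : Fact p.Prime] (hp0 : ∀ x : R, (p : R) * x = 0 → x = 0) (n : ℕ) :
    B.η (B.v n) - ∑ i ∈ range (n + 1), C (B.v i) * gen 1 (n - i) ^ p ^ i ∈ J B ℕ ^ 2 := by
  rcases n with _ | n
  · have : B.η (B.v 0) - ∑ i ∈ range (0 + 1), C (B.v i) * gen 1 (0 - i) ^ p ^ i = 0 := by
      simp [v_zero hB, gen]
    rw [this]
    exact zero_mem _
  · refine mem_J_of_dvd hB hp0 2 _ ?_
    rw [map_sub, map_sum]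
    have h1 := phi_eta_v hB hp0 n
    have h2 : (p : MvPolynomial ℕ (MvPolynomial ℕ R)) ^ 2 ∣
        (p : MvPolynomial ℕ (MvPolynomial ℕ R)) * Ew p R (n + 1) -
        ∑ i ∈ range (n + 1 + 1), map (phi p R) (C (B.v i) * gen 1 (n + 1 - i) ^ p ^ i) := by
      rw [Ew, mul_sum, ← sum_sub_distrib]
      refine Finset.dvd_sum fun i _ => ?_
      rcases i with _ | i
      · simp [map_gen_one, lam_zero, v_zero hB]
      · rw [map_mul, map_C, phi_v_succ hB, map_pow, map_gen_one, map_mul, map_natCast,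
          ← mul_assoc, ← sub_mul, ← mul_sub, ← map_sub, pow_two]
        refine Dvd.dvd.mul_right (mul_dvd_mul_left _ ?_) _
        obtain ⟨d, hd⟩ := lam_sub p R i
        rw [hd, map_mul, map_natCast]
        exact dvd_mul_right _ _
    have h3 := dvd_add h1 h2
    rwa [sub_add_sub_cancel] at h3

end EtaR

section Delta

variable {p : ℕ} {R : Type} [CommRing R] {B : BPBP p (MvPolynomial ℕ R)}

/-- `∑ t_j ⊗ t_(n-j)^(p^j)`. -/
noncomputable def Sd (p : ℕ) (R : Type) [CommRing R] (n : ℕ) :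
    MvPolynomial (ℕ ⊕ ℕ) (MvPolynomial ℕ R) :=
  ∑ j ∈ range (n + 1), rename Sum.inl (gen 1 j) * rename Sum.inr (gen 1 (n - j)) ^ p ^ j

theorem map_rename_gen {S T σ : Type} [CommRing S] [CommRing T] (f : S →+* T) (g : ℕ → σ) (n : ℕ) :
    map f (rename g (gen (1 : S) n)) = rename g (gen 1 n) := by
  rw [map_rename, map_gen_one]

theorem aux_sum {S ι : Type} [CommRing S] (q : S) {n i : ℕ} (hi : i ≤ n) (L D : S)
    (s : Finset ι) (a b c : ι → S) (h : ∀ j ∈ s, c j = a j * b j) :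
    q ^ n * (L * (D - ∑ j ∈ s, c j)) =
      q ^ (n - i) * (q ^ i * L) * D - ∑ j ∈ s, q ^ (n - i) * (q ^ i * L) * a j * b j := by
  have h3 : q ^ (n - i) * (q ^ i * L) = q ^ n * L := by
    rw [← mul_assoc, ← pow_add, Nat.sub_add_cancel hi]
  rw [h3, sum_congr rfl h]
  simp only [mul_assoc]
  rw [← mul_sum, ← mul_sum]
  ring

variable (hB : B.v = gen (p : R))

include hB

theorem phi_delta [hp : Fact p.Prime] (hp0 : ∀ x : R, (p : R) * x = 0 → x = 0) (n : ℕ) :
    (p : MvPolynomial (ℕ ⊕ ℕ) (MvPolynomial ℕ R)) ∣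
      map (phi p R) (B.Δ (gen 1 n)) - Sd p R n := by
  induction n using Nat.strong_induction_on with
  | _ n ih =>
    have h1 : ∑ i ∈ range (n + 1), C (lam p R i) *
        (map (phi p R) (B.Δ (gen 1 (n - i))) ^ p ^ i - ∑ j ∈ range (n - i + 1),
          (rename Sum.inl (gen 1 j) * rename Sum.inr (gen 1 (n - i - j)) ^ p ^ j) ^ p ^ i :
          MvPolynomial (ℕ ⊕ ℕ) (MvPolynomial ℕ R)) = 0 := by
      refine pcancel₂ hp0 n ?_
      rw [mul_zero, mul_sum]
      have h2 := congrArg (map (phi p R)) (B.coproduct n)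
      rw [map_sum, map_sum, ← sub_eq_zero, ← sum_sub_distrib] at h2
      rw [← h2]
      refine sum_congr rfl fun i hi => ?_
      have hi' : i < n + 1 := mem_range.1 hi
      rw [map_sum, show n + 1 - i = n - i + 1 by omega]
      simp only [map_mul, map_pow, map_rename_gen, map_C, phi_l hB, map_natCast]
      refine aux_sum _ (by omega) _ _ _ _ _ _ fun j _ => ?_
      rw [mul_pow, ← pow_mul, ← pow_add, add_comm i j]
    rw [sum_range_succ'] at h1
    simp only [lam_zero, map_one, one_mul, Nat.sub_zero, pow_zero, pow_one] at h1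
    have h4 := eq_neg_of_add_eq_zero_right h1
    unfold Sd
    rw [h4]
    refine (dvd_neg (α := MvPolynomial (ℕ ⊕ ℕ) (MvPolynomial ℕ R))).2
      (Finset.dvd_sum fun i hi => ?_)
    have hi' : i < n := mem_range.1 hi
    exact Dvd.dvd.mul_left (frob _ _ _ _ (ih (n - (i + 1)) (by omega))) _

/-- N1. -/
theorem delta_mem [hp : Fact p.Prime] (hp0 : ∀ x : R, (p : R) * x = 0 → x = 0) (n : ℕ) :
    B.Δ (gen 1 n) - ∑ j ∈ range (n + 1), rename Sum.inl (gen 1 j) *
      rename Sum.inr (gen 1 (n - j)) ^ p ^ j ∈ J B (ℕ ⊕ ℕ) := by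
  rw [← pow_one (J B (ℕ ⊕ ℕ))]
  refine mem_J_of_dvd hB hp0 1 _ ?_
  have h1 := phi_delta hB hp0 n
  rw [pow_one, map_sub, map_sum]
  simp only [map_mul, map_pow, map_rename_gen]
  exact h1

end Delta

section Low

variable (p : ℕ) (R : Type) [CommRing R]

/-- The substitution `v_1, v_2, v_3 ↦ 0`. -/
noncomputable def psi : MvPolynomial ℕ R →+* MvPolynomial ℕ R :=
  (aeval fun i => if i < 3 then 0 else X i : MvPolynomial ℕ R →ₐ[R] MvPolynomial ℕ R).toRingHom

theorem psi_X_lt {i : ℕ} (h : i < 3) : psi R (X i) = 0 := by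
  simp [psi, h]

theorem psi_X_ge {i : ℕ} (h : ¬ i < 3) : psi R (X i) = X i := by
  simp [psi, h]

theorem psi_C (c : R) : psi R (C c) = C c := by
  simp [psi]

variable {p R} {B : BPBP p (MvPolynomial ℕ R)} {τ : Type}

/-- The ideal `(p, v_1, v_2, v_3)`. -/
noncomputable def I4 (B : BPBP p (MvPolynomial ℕ R)) (τ : Type) :
    Ideal (MvPolynomial τ (MvPolynomial ℕ R)) := Ideal.span {b | ∃ i < 4, b = C (B.v i)}

variable (hB : B.v = gen (p : R))

include hB

theorem X_mem_I4 {i : ℕ} (h : i < 3) :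
    (C (X i) : MvPolynomial τ (MvPolynomial ℕ R)) ∈ I4 B τ :=
  Ideal.subset_span ⟨i + 1, by omega, by rw [v_succ hB]⟩

theorem p_mem_I4 : (p : MvPolynomial τ (MvPolynomial ℕ R)) ∈ I4 B τ :=
  Ideal.subset_span ⟨0, by omega, by rw [v_zero hB, map_natCast]⟩

theorem sub_psi_mem (a : MvPolynomial ℕ R) :
    (C a - C (psi R a) : MvPolynomial τ (MvPolynomial ℕ R)) ∈ I4 B τ := by
  induction a using MvPolynomial.induction_on with
  | C c => rw [psi_C, sub_self]; exact zero_mem _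
  | add a b ha hb =>
    rw [map_add, map_add, map_add, add_sub_add_comm]
    exact add_mem ha hb
  | mul_X a i ha =>
    have h1 : (C (X i) - C (psi R (X i)) : MvPolynomial τ (MvPolynomial ℕ R)) ∈ I4 B τ := by
      by_cases h : i < 3
      · rw [psi_X_lt R h, map_zero, sub_zero]
        exact X_mem_I4 hB h
      · rw [psi_X_ge R h, sub_self]; exact zero_mem _
    have h2 : (C (a * X i) - C (psi R (a * X i)) : MvPolynomial τ (MvPolynomial ℕ R)) =
        C (X i) * (C a - C (psi R a)) + C (psi R a) * (C (X i) - C (psi R (X i))) := by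
      simp only [map_mul]; ring
    rw [h2]
    exact add_mem (Ideal.mul_mem_left _ _ ha) (Ideal.mul_mem_left _ _ h1)

theorem sub_map_psi_mem (f : MvPolynomial τ (MvPolynomial ℕ R)) :
    f - map (psi R) f ∈ I4 B τ := by
  induction f using MvPolynomial.induction_on with
  | C a => rw [map_C]; exact sub_psi_mem hB a
  | add a b ha hb =>
    rw [map_add, add_sub_add_comm]
    exact add_mem ha hb
  | mul_X a i ha =>
    rw [map_mul, map_X, ← sub_mul]
    exact Ideal.mul_mem_right _ _ ha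

theorem mem_I4_of_dvd (f : MvPolynomial τ (MvPolynomial ℕ R))
    (h : (p : MvPolynomial τ (MvPolynomial ℕ R)) ∣ map (psi R) f) : f ∈ I4 B τ := by
  obtain ⟨g, hg⟩ := h
  have h1 := sub_map_psi_mem hB f
  rw [hg] at h1
  have h2 := add_mem h1 (Ideal.mul_mem_right g _ (p_mem_I4 hB (τ := τ)))
  rwa [sub_add_cancel] at h2

theorem psi_v {n : ℕ} (h0 : n ≠ 0) (h : n < 4) : psi R (B.v n) = 0 := by
  obtain ⟨m, rfl⟩ := Nat.exists_eq_succ_of_ne_zero h0
  rw [Nat.succ_eq_add_one, v_succ hB, psi_X_lt R (by omega)]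

theorem psi_l [hp : Fact p.Prime] {n : ℕ} (h0 : n ≠ 0) (h : n < 4) : psi R (B.l n) = 0 := by
  induction n using Nat.strong_induction_on with
  | _ n ih =>
    obtain ⟨m, rfl⟩ := Nat.exists_eq_succ_of_ne_zero h0
    rw [Nat.succ_eq_add_one, B.log_succ, map_sum]
    refine sum_eq_zero fun i hi => ?_
    have hi' : i < m + 1 := mem_range.1 hi
    rw [map_mul, map_pow, psi_v hB (by omega) (by omega),
      zero_pow (pow_ne_zero _ hp.out.ne_zero), mul_zero]

theorem psi_l_four [hp : Fact p.Prime] :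
    psi R (B.l 4) = (p : MvPolynomial ℕ R) ^ 3 * B.v 4 := by
  have h1 : psi R (B.v 4) = B.v 4 := by rw [v_succ hB, psi_X_ge R (by omega)]
  rw [B.log_succ, map_sum, sum_range_succ']
  rw [sum_eq_zero fun i hi => ?_]
  · simp [B.log_zero, h1]
  · have hi' : i < 3 := mem_range.1 hi
    rw [map_mul, map_mul, psi_l hB (by omega) (by omega), mul_zero, zero_mul]

theorem psi_l_five [hp : Fact p.Prime] :
    psi R (B.l 5) = (p : MvPolynomial ℕ R) ^ 4 * B.v 5 := by
  have h1 : psi R (B.v 5) = B.v 5 := by rw [v_succ hB, psi_X_ge R (by omega)]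
  rw [B.log_succ, map_sum, sum_range_succ']
  rw [sum_eq_zero fun i hi => ?_]
  · simp [B.log_zero, h1]
  · have hi' : i < 4 := mem_range.1 hi
    by_cases h : i = 3
    · subst h
      rw [map_mul, map_pow, psi_v hB (by omega) (by omega),
        zero_pow (pow_ne_zero _ hp.out.ne_zero), mul_zero]
    · rw [map_mul, map_mul, psi_l hB (by omega) (by omega), mul_zero, zero_mul]

/-- The image of `η (l n)` modulo `v_1, v_2, v_3`, for `n < 4`. -/
theorem psi_eta_l [hp : Fact p.Prime] {n : ℕ} (h : n < 4) :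
    map (psi R) (B.η (B.l n)) = (p : MvPolynomial ℕ (MvPolynomial ℕ R)) ^ n * gen 1 n := by
  rw [B.unit, map_sum, sum_range_succ', sum_eq_zero fun i hi => ?_]
  · simp [B.log_zero, map_gen_one]
  · have hi' : i < n := mem_range.1 hi
    rw [map_mul, map_C, map_mul, psi_l hB (by omega) (by omega), mul_zero, map_zero, zero_mul]

theorem psi_eta_l_four [hp : Fact p.Prime] :
    map (psi R) (B.η (B.l 4)) = (p : MvPolynomial ℕ (MvPolynomial ℕ R)) ^ 4 * gen 1 4 +
      (p : MvPolynomial ℕ (MvPolynomial ℕ R)) ^ 3 * C (B.v 4) := by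
  rw [B.unit, map_sum, sum_range_succ, sum_range_succ', sum_eq_zero fun i hi => ?_]
  · simp [B.log_zero, map_gen_one, psi_l_four hB]
    simp [gen]
  · have hi' : i < 3 := mem_range.1 hi
    rw [map_mul, map_C, map_mul, psi_l hB (by omega) (by omega), mul_zero, map_zero, zero_mul]

theorem psi_eta_l_five [hp : Fact p.Prime] :
    map (psi R) (B.η (B.l 5)) = (p : MvPolynomial ℕ (MvPolynomial ℕ R)) ^ 5 * gen 1 5 +
      (p : MvPolynomial ℕ (MvPolynomial ℕ R)) ^ 4 * C (B.v 4) * X 0 ^ p ^ 4 +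
      (p : MvPolynomial ℕ (MvPolynomial ℕ R)) ^ 4 * C (B.v 5) := by
  rw [B.unit, map_sum, sum_range_succ, sum_range_succ, sum_range_succ',
    sum_eq_zero fun i hi => ?_]
  · simp [B.log_zero, map_gen_one, psi_l_four hB, psi_l_five hB]
    simp [gen]
    ring
  · have hi' : i < 3 := mem_range.1 hi
    rw [map_mul, map_C, map_mul, psi_l hB (by omega) (by omega), mul_zero, map_zero, zero_mul]

omit hB in
theorem psi_eta_rec (n : ℕ) : map (psi R) (B.η (B.l (n + 1))) = ∑ i ∈ range (n + 1),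
    (p : MvPolynomial ℕ (MvPolynomial ℕ R)) ^ (n - i) * map (psi R) (B.η (B.l i)) *
      map (psi R) (B.η (B.v (n + 1 - i))) ^ p ^ i := by
  rw [B.log_succ, map_sum, map_sum]
  simp only [map_mul, map_pow, map_natCast]

theorem psi_eta_sum [hp : Fact p.Prime] {n m : ℕ} (h : m ≤ n + 1) (hm : m ≤ 4) :
    ∑ i ∈ range m, (p : MvPolynomial ℕ (MvPolynomial ℕ R)) ^ (n - i) *
      map (psi R) (B.η (B.l i)) * map (psi R) (B.η (B.v (n + 1 - i))) ^ p ^ i =
    (p : MvPolynomial ℕ (MvPolynomial ℕ R)) ^ n *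
      ∑ i ∈ range m, gen 1 i * map (psi R) (B.η (B.v (n + 1 - i))) ^ p ^ i := by
  rw [mul_sum]
  refine sum_congr rfl fun i hi => ?_
  have hi' : i < m := mem_range.1 hi
  rw [psi_eta_l hB (by omega), ← mul_assoc ((p : MvPolynomial ℕ (MvPolynomial ℕ R)) ^ (n - i)),
    ← pow_add, Nat.sub_add_cancel (by omega)]
  ring

theorem psi_eta_v [hp : Fact p.Prime] (hp0 : ∀ x : R, (p : R) * x = 0 → x = 0) {n : ℕ}
    (h : n < 3) : (p : MvPolynomial ℕ (MvPolynomial ℕ R)) ∣ map (psi R) (B.η (B.v (n + 1))) := by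
  induction n using Nat.strong_induction_on with
  | _ n ih =>
    have h1 := psi_eta_rec (B := B) n
    rw [psi_eta_sum hB le_rfl (by omega), psi_eta_l hB (by omega), pow_succ, mul_assoc] at h1
    have h2 := pcancel₂ hp0 n h1
    rw [sum_range_succ'] at h2
    have h3 : (p : MvPolynomial ℕ (MvPolynomial ℕ R)) ∣ ∑ i ∈ range n, gen 1 (i + 1) *
        map (psi R) (B.η (B.v (n + 1 - (i + 1)))) ^ p ^ (i + 1) := by
      refine Finset.dvd_sum fun i hi => ?_
      have hi' : i < n := mem_range.1 hi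
      have h4 := ih (n - 1 - i) (by omega) (by omega)
      rw [show n - 1 - i + 1 = n + 1 - (i + 1) by omega] at h4
      exact Dvd.dvd.mul_left (dvd_pow h4 (pow_ne_zero _ hp.out.ne_zero)) _
    have h5 : (gen 1 0 : MvPolynomial ℕ (MvPolynomial ℕ R)) = 1 := by simp [gen]
    rw [h5, one_mul, pow_zero, pow_one, Nat.sub_zero] at h2
    exact (dvd_add_right h3).1 (by rw [← h2]; exact dvd_mul_right _ _)

/-- N3. -/
theorem eta_v_mem_I4 [hp : Fact p.Prime] (hp0 : ∀ x : R, (p : R) * x = 0 → x = 0) {n : ℕ}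
    (h : n < 4) : B.η (B.v n) ∈ I4 B ℕ := by
  rcases n with _ | n
  · rw [v_zero hB, map_natCast]; exact p_mem_I4 hB
  · exact mem_I4_of_dvd hB _ (psi_eta_v hB hp0 (by omega))

theorem psi_eta_four [hp : Fact p.Prime] (hp0 : ∀ x : R, (p : R) * x = 0 → x = 0) :
    (p : MvPolynomial ℕ (MvPolynomial ℕ R)) ∣
      map (psi R) (B.η (B.v 4)) - C (B.v 4) := by
  have h1 := psi_eta_rec (B := B) 3
  rw [psi_eta_sum hB le_rfl (by omega), psi_eta_l_four hB] at h1
  have h2 : (p : MvPolynomial ℕ (MvPolynomial ℕ R)) ^ 3 *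
      ((p : MvPolynomial ℕ (MvPolynomial ℕ R)) * gen 1 4 + C (B.v 4)) =
      (p : MvPolynomial ℕ (MvPolynomial ℕ R)) ^ 3 *
      ∑ i ∈ range (3 + 1), gen 1 i * map (psi R) (B.η (B.v (3 + 1 - i))) ^ p ^ i := by
    rw [← h1]; ring
  have h3 := pcancel₂ hp0 3 h2
  rw [sum_range_succ'] at h3
  have h4 : (p : MvPolynomial ℕ (MvPolynomial ℕ R)) ∣ ∑ i ∈ range 3, gen 1 (i + 1) *
      map (psi R) (B.η (B.v (3 + 1 - (i + 1)))) ^ p ^ (i + 1) := by
    refine Finset.dvd_sum fun i hi => ?_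
    have hi' : i < 3 := mem_range.1 hi
    have h5 := psi_eta_v hB hp0 (n := 2 - i) (by omega)
    rw [show 2 - i + 1 = 3 + 1 - (i + 1) by omega] at h5
    exact Dvd.dvd.mul_left (dvd_pow h5 (pow_ne_zero _ hp.out.ne_zero)) _
  have h5 : (gen 1 0 : MvPolynomial ℕ (MvPolynomial ℕ R)) = 1 := by simp [gen]
  rw [h5, one_mul, pow_zero, pow_one, Nat.sub_zero] at h3
  have h6 : map (psi R) (B.η (B.v 4)) - C (B.v 4) =
      (p : MvPolynomial ℕ (MvPolynomial ℕ R)) * gen 1 4 - ∑ i ∈ range 3, gen 1 (i + 1) *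
      map (psi R) (B.η (B.v (3 + 1 - (i + 1)))) ^ p ^ (i + 1) := by
    linear_combination -h3
  rw [h6]
  exact dvd_sub (dvd_mul_right _ _) h4

theorem map_psi_C_v {n : ℕ} (h : 4 ≤ n) :
    map (psi R) (C (B.v n) : MvPolynomial τ (MvPolynomial ℕ R)) = C (B.v n) := by
  obtain ⟨m, rfl⟩ : ∃ m, n = m + 1 := ⟨n - 1, by omega⟩
  rw [map_C, v_succ hB, psi_X_ge R (by omega)]

/-- N4, first part. -/
theorem eta_v_four [hp : Fact p.Prime] (hp0 : ∀ x : R, (p : R) * x = 0 → x = 0) :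
    B.η (B.v 4) - C (B.v 4) ∈ I4 B ℕ := by
  refine mem_I4_of_dvd hB _ ?_
  rw [map_sub, map_psi_C_v hB le_rfl]
  exact psi_eta_four hB hp0

theorem psi_eta_one [hp : Fact p.Prime] :
    map (psi R) (B.η (B.v 1)) = (p : MvPolynomial ℕ (MvPolynomial ℕ R)) * X 0 := by
  have h1 := psi_eta_rec (B := B) 0
  rw [psi_eta_l hB (by omega)] at h1
  simp [B.log_zero, gen] at h1
  exact h1.symm

theorem psi_eta_five [hp : Fact p.Prime] (hp0 : ∀ x : R, (p : R) * x = 0 → x = 0) :
    (p : MvPolynomial ℕ (MvPolynomial ℕ R)) ∣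
      map (psi R) (B.η (B.v 5)) - (C (B.v 5) + C (B.v 4) * X 0 ^ p ^ 4 - C (B.v 4) ^ p * X 0) := by
  have h1 := psi_eta_rec (B := B) 4
  rw [sum_range_succ, psi_eta_sum hB (by omega) le_rfl, psi_eta_l_five hB, psi_eta_l_four hB,
    Nat.sub_self, pow_zero, one_mul, show 4 + 1 - 4 = 1 by rfl, psi_eta_one hB] at h1
  have h0 : 2 ≤ p ^ 4 := by
    have := Nat.one_lt_pow (n := 4) (by omega) hp.out.one_lt
    omega
  obtain ⟨k, hk⟩ := Nat.exists_eq_add_of_le h0
  have h2 : (p : MvPolynomial ℕ (MvPolynomial ℕ R)) ^ 4 *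
      ((p : MvPolynomial ℕ (MvPolynomial ℕ R)) * gen 1 5 + C (B.v 4) * X 0 ^ p ^ 4 + C (B.v 5)) =
      (p : MvPolynomial ℕ (MvPolynomial ℕ R)) ^ 4 *
      (∑ i ∈ range 4, gen 1 i * map (psi R) (B.η (B.v (4 + 1 - i))) ^ p ^ i +
        (p : MvPolynomial ℕ (MvPolynomial ℕ R)) *
          ((p : MvPolynomial ℕ (MvPolynomial ℕ R)) * gen 1 4 + C (B.v 4)) *
          (p : MvPolynomial ℕ (MvPolynomial ℕ R)) ^ k * X 0 ^ p ^ 4) := by
    have h3 : ((p : MvPolynomial ℕ (MvPolynomial ℕ R)) * X 0) ^ p ^ 4 =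
        (p : MvPolynomial ℕ (MvPolynomial ℕ R)) ^ 2 *
          (p : MvPolynomial ℕ (MvPolynomial ℕ R)) ^ k * X 0 ^ p ^ 4 := by
      rw [mul_pow, ← pow_add, ← hk]
    rw [h3] at h1
    linear_combination h1
  have h3 := pcancel₂ hp0 4 h2
  rw [sum_range_succ', sum_range_succ'] at h3
  have h4 : (p : MvPolynomial ℕ (MvPolynomial ℕ R)) ∣ ∑ i ∈ range 2, gen 1 (i + 1 + 1) *
      map (psi R) (B.η (B.v (4 + 1 - (i + 1 + 1)))) ^ p ^ (i + 1 + 1) := by
    refine Finset.dvd_sum fun i hi => ?_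
    have hi' : i < 2 := mem_range.1 hi
    have h5 := psi_eta_v hB hp0 (n := 2 - i) (by omega)
    rw [show 2 - i + 1 = 4 + 1 - (i + 1 + 1) by omega] at h5
    exact Dvd.dvd.mul_left (dvd_pow h5 (pow_ne_zero _ hp.out.ne_zero)) _
  have h5 : (gen 1 0 : MvPolynomial ℕ (MvPolynomial ℕ R)) = 1 := by simp [gen]
  have h6 : (gen 1 (0 + 1) : MvPolynomial ℕ (MvPolynomial ℕ R)) = X 0 := by simp [gen]
  rw [h5, h6, one_mul, pow_zero, pow_one, Nat.sub_zero, zero_add, pow_one,
    show 4 + 1 - 1 = 4 by rfl, show 4 + 1 = 5 by rfl] at h3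
  have h7 : (p : MvPolynomial ℕ (MvPolynomial ℕ R)) ∣
      map (psi R) (B.η (B.v 4)) ^ p - C (B.v 4) ^ p :=
    dvd_trans (psi_eta_four hB hp0) (sub_dvd_pow_sub_pow _ _ _)
  have h8 : map (psi R) (B.η (B.v 5)) -
      (C (B.v 5) + C (B.v 4) * X 0 ^ p ^ 4 - C (B.v 4) ^ p * X 0) =
      (p : MvPolynomial ℕ (MvPolynomial ℕ R)) * (gen 1 5 -
        ((p : MvPolynomial ℕ (MvPolynomial ℕ R)) * gen 1 4 + C (B.v 4)) *
          (p : MvPolynomial ℕ (MvPolynomial ℕ R)) ^ k * X 0 ^ p ^ 4) -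
      ∑ i ∈ range 2, gen 1 (i + 1 + 1) *
        map (psi R) (B.η (B.v (5 - (i + 1 + 1)))) ^ p ^ (i + 1 + 1) -
      (map (psi R) (B.η (B.v 4)) ^ p - C (B.v 4) ^ p) * X 0 := by
    linear_combination -h3
  rw [h8]
  exact dvd_sub (dvd_sub (dvd_mul_right _ _) h4) (Dvd.dvd.mul_right h7 _)

/-- N4, second part. -/
theorem eta_v_five [hp : Fact p.Prime] (hp0 : ∀ x : R, (p : R) * x = 0 → x = 0) :
    B.η (B.v 5) - (C (B.v 5) + C (B.v 4) * X 0 ^ p ^ 4 - C (B.v 4) ^ p * X 0) ∈ I4 B ℕ := by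
  refine mem_I4_of_dvd hB _ ?_
  rw [map_sub, map_sub, map_add, map_mul, map_mul, map_pow, map_pow, map_X,
    map_psi_C_v hB le_rfl, map_psi_C_v hB (by omega)]
  exact psi_eta_five hB hp0

end Low

section Degree

variable {p : ℕ} {R : Type} [CommRing R] {τ : Type}

/-- Every monomial `v^a t^e` of `f` has degree `d`, where `v_(i+1)` has degree `wt p i` and the
variable `k` has degree `w k`. -/
def Hom2 (p : ℕ) (w : τ → ℕ) (d : ℕ) (f : MvPolynomial τ (MvPolynomial ℕ R)) : Prop :=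
  ∀ e a, coeff a (coeff e f) ≠ 0 → Finsupp.weight (PC.wt p) a + Finsupp.weight w e = d

theorem Hom2.sum_eq {w : τ → ℕ} {d : ℕ} {f : MvPolynomial τ (MvPolynomial ℕ R)}
    (h : Hom2 p w d f) (e : τ →₀ ℕ) (a : ℕ →₀ ℕ) (hc : coeff a (coeff e f) ≠ 0) :
    (a.sum fun i m => m * PC.wt p i) + (e.sum fun k m => m * w k) = d := by
  have h1 := h e a hc
  rw [Finsupp.weight_apply, Finsupp.weight_apply] at h1
  exact h1

theorem Hom2.zero (w : τ → ℕ) (d : ℕ) : Hom2 (R := R) p w d 0 := by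
  intro e a h; simp at h

theorem Hom2.add {w : τ → ℕ} {d : ℕ} {f g : MvPolynomial τ (MvPolynomial ℕ R)}
    (hf : Hom2 p w d f) (hg : Hom2 p w d g) : Hom2 p w d (f + g) := by
  intro e a h
  rw [coeff_add, coeff_add] at h
  by_cases h1 : coeff a (coeff e f) = 0
  · rw [h1, zero_add] at h; exact hg e a h
  · exact hf e a h1

theorem Hom2.neg {w : τ → ℕ} {d : ℕ} {f : MvPolynomial τ (MvPolynomial ℕ R)}
    (hf : Hom2 p w d f) : Hom2 p w d (-f) := by
  intro e a h
  rw [coeff_neg, coeff_neg, neg_ne_zero] at h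
  exact hf e a h

theorem Hom2.sub {w : τ → ℕ} {d : ℕ} {f g : MvPolynomial τ (MvPolynomial ℕ R)}
    (hf : Hom2 p w d f) (hg : Hom2 p w d g) : Hom2 p w d (f - g) := by
  rw [sub_eq_add_neg]; exact hf.add hg.neg

theorem Hom2.sum {w : τ → ℕ} {d : ℕ} {ι : Type} (s : Finset ι)
    {f : ι → MvPolynomial τ (MvPolynomial ℕ R)} (hf : ∀ i ∈ s, Hom2 p w d (f i)) :
    Hom2 p w d (∑ i ∈ s, f i) := by
  classical
  induction s using Finset.induction_on with
  | empty => exact Hom2.zero w d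
  | insert i s hi ih =>
    rw [sum_insert hi]
    exact (hf i (mem_insert_self i s)).add (ih fun j hj => hf j (mem_insert_of_mem hj))

theorem Hom2.mul {w : τ → ℕ} {d d' : ℕ} {f g : MvPolynomial τ (MvPolynomial ℕ R)}
    (hf : Hom2 p w d f) (hg : Hom2 p w d' g) : Hom2 p w (d + d') (f * g) := by
  classical
  intro e a h
  rw [coeff_mul, coeff_sum] at h
  obtain ⟨x, hx, h1⟩ := exists_ne_zero_of_sum_ne_zero h
  rw [coeff_mul] at h1
  obtain ⟨y, hy, h2⟩ := exists_ne_zero_of_sum_ne_zero h1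
  have h3 := hf x.1 y.1 (left_ne_zero_of_mul h2)
  have h4 := hg x.2 y.2 (right_ne_zero_of_mul h2)
  rw [← mem_antidiagonal.1 hx, ← mem_antidiagonal.1 hy, map_add, map_add, ← h3, ← h4]
  ring

theorem Hom2.C {w : τ → ℕ} {d : ℕ} {a : MvPolynomial ℕ R}
    (ha : a.IsWeightedHomogeneous (PC.wt p) d) : Hom2 p w d (MvPolynomial.C a) := by
  classical
  intro e b h
  rw [coeff_C] at h
  split_ifs at h with h1
  · rw [← h1, map_zero, add_zero]; exact ha h
  · simp at h

theorem Hom2.one (w : τ → ℕ) : Hom2 (R := R) p w 0 1 := by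
  rw [← MvPolynomial.C_1]
  exact Hom2.C (isWeightedHomogeneous_one R _)

theorem Hom2.natCast (w : τ → ℕ) (n : ℕ) : Hom2 (R := R) p w 0 (n : MvPolynomial τ _) := by
  rw [← map_natCast (MvPolynomial.C : MvPolynomial ℕ R →+* MvPolynomial τ (MvPolynomial ℕ R)),
    ← map_natCast (MvPolynomial.C : R →+* MvPolynomial ℕ R)]
  exact Hom2.C (isWeightedHomogeneous_C _ _)

theorem Hom2.pow {w : τ → ℕ} {d : ℕ} {f : MvPolynomial τ (MvPolynomial ℕ R)}
    (hf : Hom2 p w d f) (n : ℕ) : Hom2 p w (n * d) (f ^ n) := by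
  induction n with
  | zero => simpa using Hom2.one w
  | succ n ih => rw [pow_succ, add_mul, one_mul]; exact ih.mul hf

theorem Hom2.X (w : τ → ℕ) (k : τ) : Hom2 (R := R) p w (w k) (MvPolynomial.X k) := by
  classical
  intro e a h
  rw [coeff_X] at h
  split_ifs at h with h1
  · rw [coeff_one] at h
    split_ifs at h with h2
    · rw [← h1, ← h2, map_zero, zero_add, Finsupp.weight_apply]
      simp
    · exact absurd rfl h
  · simp at h

theorem Hom2.of_pow_mul (hp0 : ∀ x : R, (p : R) * x = 0 → x = 0) {w : τ → ℕ} {d n : ℕ}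
    {f : MvPolynomial τ (MvPolynomial ℕ R)}
    (h : Hom2 p w d ((p : MvPolynomial τ (MvPolynomial ℕ R)) ^ n * f)) : Hom2 p w d f := by
  intro e a hc
  refine h e a fun h1 => hc ?_
  rw [← map_natCast (MvPolynomial.C : MvPolynomial ℕ R →+* MvPolynomial τ (MvPolynomial ℕ R)),
    ← map_pow, coeff_C_mul, ← map_natCast (MvPolynomial.C : R →+* MvPolynomial ℕ R), ← map_pow,
    coeff_C_mul] at h1
  exact cancel_pow hp0 n (by rw [h1, mul_zero])

/-- The degree of `v_n` and of `t_n`. -/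
def D (p n : ℕ) : ℕ := ∑ i ∈ range n, p ^ i

theorem D_add (p i j : ℕ) : D p i + p ^ i * D p j = D p (i + j) := by
  unfold D
  rw [sum_range_add, mul_sum]
  simp [pow_add]

theorem D_add' (p : ℕ) {i n : ℕ} (h : i ≤ n) : D p i + p ^ i * D p (n - i) = D p n := by
  rw [D_add, Nat.add_sub_cancel' h]

theorem hom_gen (w : τ → ℕ) (f : ℕ → τ) (hf : ∀ n, w (f n) = PC.wt p n) (n : ℕ) :
    Hom2 (R := R) p w (D p n) (rename f (gen 1 n)) := by
  unfold gen
  rcases n with _ | n
  · simpa [D] using Hom2.one w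
  · simp only [Nat.add_eq_zero_iff, one_ne_zero, and_false, if_false, Nat.add_sub_cancel, rename_X]
    have := Hom2.X (R := R) (p := p) w (f n)
    rw [hf] at this
    exact this

theorem hom_gen' (n : ℕ) : Hom2 (R := R) p (PC.wt p) (D p n) (gen 1 n) := by
  have := hom_gen (R := R) (p := p) (PC.wt p) (fun n => n) (fun _ => rfl) n
  have h1 : (rename fun n : ℕ => n) (gen (1 : MvPolynomial ℕ R) n) = gen 1 n := by
    exact rename_id_apply _
  rwa [h1] at this

variable {B : BPBP p (MvPolynomial ℕ R)} (hB : B.v = gen (p : R))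

include hB

theorem hom_v (n : ℕ) : (B.v n).IsWeightedHomogeneous (PC.wt p) (D p n) := by
  rcases n with _ | n
  · rw [v_zero hB, ← map_natCast (MvPolynomial.C : R →+* MvPolynomial ℕ R)]
    exact isWeightedHomogeneous_C _ _
  · rw [v_succ hB]
    exact isWeightedHomogeneous_X _ _ _

omit hB in
theorem hom_pow {a : MvPolynomial ℕ R} {d : ℕ} (h : a.IsWeightedHomogeneous (PC.wt p) d) (n : ℕ) :
    (a ^ n).IsWeightedHomogeneous (PC.wt p) (n * d) := by
  have := h.pow n
  rwa [smul_eq_mul] at this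

omit hB in
theorem hom_p_pow (n : ℕ) :
    ((p : MvPolynomial ℕ R) ^ n).IsWeightedHomogeneous (PC.wt p) 0 := by
  rw [← map_natCast (MvPolynomial.C : R →+* MvPolynomial ℕ R), ← map_pow]
  exact isWeightedHomogeneous_C _ _

theorem hom_l (n : ℕ) : (B.l n).IsWeightedHomogeneous (PC.wt p) (D p n) := by
  induction n using Nat.strong_induction_on with
  | _ n ih =>
    rcases n with _ | n
    · rw [B.log_zero]; exact isWeightedHomogeneous_one _ _
    · rw [B.log_succ]
      refine IsWeightedHomogeneous.sum _ _ _ fun i hi => ?_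
      have hi' : i < n + 1 := mem_range.1 hi
      have h1 := ((hom_p_pow (n - i)).mul (ih i hi')).mul
        (hom_pow (hom_v hB (n + 1 - i)) (p ^ i))
      rwa [zero_add, D_add' p hi'.le] at h1

theorem hom_pl (n i : ℕ) :
    ((p : MvPolynomial ℕ R) ^ n * B.l i).IsWeightedHomogeneous (PC.wt p) (D p i) := by
  have h1 := (hom_p_pow n).mul (hom_l hB i)
  rwa [zero_add] at h1

theorem hom_eta_l (n : ℕ) : Hom2 p (PC.wt p) (D p n) (B.η (B.l n)) := by
  rw [B.unit]
  refine Hom2.sum _ fun i hi => ?_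
  have hi' : i < n + 1 := mem_range.1 hi
  have h1 := (Hom2.C (w := PC.wt p) (hom_pl hB (n - i) i)).mul ((hom_gen' (n - i)).pow (p ^ i))
  rwa [D_add' p (by omega)] at h1

/-- N5, right unit. -/
theorem hom_eta_v (hp0 : ∀ x : R, (p : R) * x = 0 → x = 0) (n : ℕ) :
    Hom2 p (PC.wt p) (D p n) (B.η (B.v n)) := by
  induction n using Nat.strong_induction_on with
  | _ n ih =>
    rcases n with _ | n
    · rw [v_zero hB, map_natCast]; exact Hom2.natCast _ _
    · have h1 := congrArg B.η (B.log_succ n)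
      rw [map_sum, sum_range_succ'] at h1
      simp only [map_mul, map_pow, map_natCast, B.log_zero, pow_zero, pow_one, mul_one,
        Nat.sub_zero] at h1
      refine Hom2.of_pow_mul hp0 (n := n) ?_
      rw [eq_sub_of_add_eq' h1.symm]
      refine (hom_eta_l hB (n + 1)).sub (Hom2.sum _ fun i hi => ?_)
      have hi' : i < n := mem_range.1 hi
      have h2 := (((Hom2.natCast (R := R) (p := p) (PC.wt p) p).pow (n - (i + 1))).mul
        (hom_eta_l hB (i + 1))).mul ((ih (n + 1 - (i + 1)) (by omega)).pow (p ^ (i + 1)))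
      rwa [mul_zero, zero_add, D_add' p (by omega)] at h2

/-- N5, coproduct. -/
theorem hom_delta (hp0 : ∀ x : R, (p : R) * x = 0 → x = 0) (n : ℕ) :
    Hom2 p (Sum.elim (PC.wt p) (PC.wt p)) (D p n) (B.Δ (gen 1 n)) := by
  induction n using Nat.strong_induction_on with
  | _ n ih =>
    have h1 := B.coproduct n
    rw [sum_range_succ'] at h1
    simp only [B.log_zero, pow_zero, pow_one, mul_one, Nat.sub_zero] at h1
    refine Hom2.of_pow_mul hp0 (n := n) ?_
    rw [show (p : MvPolynomial (ℕ ⊕ ℕ) (MvPolynomial ℕ R)) ^ n =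
      MvPolynomial.C ((p : MvPolynomial ℕ R) ^ n) by simp, eq_sub_of_add_eq' h1]
    refine Hom2.sub (Hom2.sum _ fun i hi => Hom2.sum _ fun j hj => ?_)
      (Hom2.sum _ fun i hi => ?_)
    · have hi' : i < n + 1 := mem_range.1 hi
      have hj' : j < n + 1 - i := mem_range.1 hj
      have h2 := ((Hom2.C (w := Sum.elim (PC.wt p) (PC.wt p)) (hom_pl hB (n - i) i)).mul
        ((hom_gen (R := R) (p := p) (Sum.elim (PC.wt p) (PC.wt p)) Sum.inl (fun _ => rfl) j).pow
          (p ^ i))).mul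
        ((hom_gen (R := R) (p := p) (Sum.elim (PC.wt p) (PC.wt p)) Sum.inr (fun _ => rfl)
          (n - i - j)).pow (p ^ (i + j)))
      rwa [D_add, D_add, show i + j + (n - i - j) = n by omega] at h2
    · have hi' : i < n := mem_range.1 hi
      have h2 := (Hom2.C (w := Sum.elim (PC.wt p) (PC.wt p)) (hom_pl hB (n - (i + 1)) (i + 1))).mul
        ((ih (n - (i + 1)) (by omega)).pow (p ^ (i + 1)))
      rwa [D_add' p (by omega)] at h2

/-- Every monomial `v^a t^e` of `η (v_(n+1))` has degree `wt p n`. -/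
theorem eta_X_degree (hp0 : ∀ x : R, (p : R) * x = 0 → x = 0) (n : ℕ) (e a : ℕ →₀ ℕ)
    (h : coeff a (coeff e (B.η (X n))) ≠ 0) :
    (a.sum fun i m => m * PC.wt p i) + (e.sum fun k m => m * PC.wt p k) = PC.wt p n := by
  have h1 := hom_eta_v hB hp0 (n + 1)
  rw [v_succ hB] at h1
  exact h1.sum_eq e a h

/-- Every monomial `v^a t^e` of `Δ (t_(n+1))` has degree `wt p n`. -/
theorem delta_X_degree (hp0 : ∀ x : R, (p : R) * x = 0 → x = 0) (n : ℕ) (e : ℕ ⊕ ℕ →₀ ℕ)
    (a : ℕ →₀ ℕ) (h : coeff a (coeff e (B.Δ (X n))) ≠ 0) :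
    (a.sum fun i m => m * PC.wt p i) +
      (e.sum fun k m => m * Sum.elim (PC.wt p) (PC.wt p) k) = PC.wt p n := by
  have h1 := hom_delta hB hp0 (n + 1)
  have h2 : (gen (1 : MvPolynomial ℕ R) (n + 1)) = X n := by simp [gen]
  rw [h2] at h1
  exact h1.sum_eq e a h

end Degree

end Vale.Agent.P257.Q.Eta
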