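import Vale.Agent.P257.Q.Defs
import Vale.Agent.P257.Q.PDefs

/-! The facts on `Ext(BP_*, BP_*/I_4)` used by the spectral sequence argument. -/

namespace Vale.Agent.P257.Q

open MvPolynomial TensorProduct Finset Vale.Agent.P257.S

variable {p : ℕ} {A : Type} [CommRing A] {B : BPBP p A} {M : ModuleCat.{0} A}

/-- The internal degree `q N`, `q = 2 (p - 1)`. -/
def qd (p N : ℕ) : ℤ := ((2 * (p - 1) : ℕ) : ℤ) * (N : ℤ)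

/-- `Ext^(s,t) = 0`. -/
def VanL (D : Comod B M) (s : ℕ) (t : ℤ) : Prop := ∀ z, IsCocycle D s t z → IsCobdry D s t z

/-- Left multiplication by `b_(1,0)`. -/
noncomputable def mulB (B : BPBP p A) (w : W A) : W A := b₁ p A * shift B (shift B w)

/-- `t_1^(p^4) - v_4^(p-1) t_1`. -/
noncomputable def hh4 (B : BPBP p A) : W A :=
  X (0, 0) ^ p ^ 4 - C (B.v 4) ^ (p - 1) * X (0, 0)

/-- The facts on `Ext(BP_*, BP_*/I_4)`; `D` is the comodule `BP_*/I_4` with generator `x`. -/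
structure LFacts (D : Comod B M) (x : M) : Prop where
  F0 : IsCocycle D 2 (qd p p) (b₁ p A ⊗ₜ[A] x)
  F0' : IsCocycle D 0 (qd p (PC.ee p)) ((C (B.v 4) : W A) ⊗ₜ[A] x)
  F1 : IsCocycle D 1 (qd p (p ^ 4)) (hh4 B ⊗ₜ[A] x)
  F1' : IsCobdry D 1 (qd p (PC.ee p + p ^ 4)) ((hh4 B * shift B (C (B.v 4))) ⊗ₜ[A] x)
  F2 : ∀ z y : W A, IsCocycle D (2 * (p - 1) + 1) (qd p (PC.ee p + 1)) (z ⊗ₜ[A] x) →
    IsCocycle D (2 * (p - 1) + 2) (qd p (p ^ 4 + 1)) (y ⊗ₜ[A] x) →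
    IsCobdry D (2 * (p - 1) + 2) (qd p (PC.ee p + 1 + p ^ 4))
      ((hh4 B * shift B z + y * (shift B)^[2 * (p - 1) + 2] (C (B.v 4))) ⊗ₜ[A] x) →
    IsCobdry D (2 * (p - 1) + 1) (qd p (PC.ee p + 1)) (z ⊗ₜ[A] x)
  F3 : ∀ k, 2 ≤ k → k ≠ p → VanL D (k * (2 * (p - 1)) + 1) (qd p (PC.ee p + k))
  F4 : ∀ y : W A, IsCocycle D (p * (2 * (p - 1)) + 1) (qd p (PC.ee p + p)) (y ⊗ₜ[A] x) →
    ∃ w : W A, IsCocycle D 5 (qd p (1 + 4 * p + 2 * p ^ 2)) (w ⊗ₜ[A] x) ∧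
    IsCobdry D (p * (2 * (p - 1)) + 1) (qd p (PC.ee p + p))
      ((y - (mulB B)^[p ^ 2 - p - 2] w) ⊗ₜ[A] x)
  F4' : VanL D 6 (qd p (2 + 4 * p + 2 * p ^ 2))
  F5 : ∀ k, 1 ≤ k → k ≤ p - 1 →
    VanL D (k * (2 * (p - 1)) + 6) (qd p (1 + 4 * p + 2 * p ^ 2 + k))
  F6 : ∀ j, 3 ≤ j → j ≤ p - 1 → VanL D (j * (2 * (p - 1)) + 6) (qd p (PC.ee p + 3 * p + j))
  F6' : ∀ y : W A, IsCocycle D (2 * (2 * (p - 1)) + 6) (qd p (PC.ee p + 3 * p + 2)) (y ⊗ₜ[A] x) →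
    ∃ T : W A, IsCocycle D (2 * (2 * (p - 1))) (qd p (PC.ee p + 2)) (T ⊗ₜ[A] x) ∧
      IsCobdry D (2 * (2 * (p - 1)) + 6) (qd p (PC.ee p + 3 * p + 2))
        ((y - (mulB B)^[3] T) ⊗ₜ[A] x)
  F7 : ∀ y : W A, IsCocycle D (p * (2 * (p - 1)) + 1) (qd p (PC.ee p + p)) (y ⊗ₜ[A] x) →
    IsCobdry D (p * (2 * (p - 1)) + 7) (qd p (PC.ee p + 4 * p))
      (((mulB B)^[3] y) ⊗ₜ[A] x) →
    IsCobdry D (p * (2 * (p - 1)) + 1) (qd p (PC.ee p + p)) (y ⊗ₜ[A] x)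
  F8 : ∀ k, 1 ≤ k → k ≤ p - 2 → VanL D (k * (2 * (p - 1)) + 3) (qd p (p + k))

end Vale.Agent.P257.Q
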