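import Vale.Agent.P257.Q.Cochains

/-! The multiplicative spectral sequence of `V(3)`. -/

namespace Vale.Agent.P257.Q

open MvPolynomial TensorProduct Finset CategoryTheory MonoidalCategory Limits Pretriangulated
  Vale.Agent.P257.S

section Comodule

variable {p : ℕ} {R : Type} [CommRing R] {B : S.BPBP p (MvPolynomial ℕ R)}
  {M : ModuleCat.{0} (MvPolynomial ℕ R)} {D : Comod B M} {x : M}

/-- Homogeneous coefficients. -/
theorem exists_homog_comod (hR : S.IsZp p R) (hB : B.v = gen (p : R)) (hx : x ∈ D.deg 0)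
    (hs : ∀ y : M, ∃ a : MvPolynomial ℕ R, y = a • x) {j : ℤ} {y : M} (hy : y ∈ D.deg j) :
    ∃ a ∈ grP p R j, y = a • x := by
  classical
  obtain ⟨a, rfl⟩ := hs y
  obtain ⟨π, -, h2, h3, -⟩ := exists_proj _ D.internal
  refine ⟨(DirectSum.decompose (grP p R) a j : MvPolynomial ℕ R), Subtype.property _, ?_⟩
  rw [← h2 j _ hy]
  conv_lhs => rw [← DirectSum.sum_support_decompose (grP p R) a]
  rw [Finset.sum_smul, map_sum]
  have hmem : ∀ i, (DirectSum.decompose (grP p R) a i : MvPolynomial ℕ R) • x ∈ D.deg i := fun i => by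
    have := smul_mem' hR hB D i 0 _ x (Subtype.property (DirectSum.decompose (grP p R) a i)) hx
    rwa [add_zero] at this
  by_cases hj : j ∈ (DirectSum.decompose (grP p R) a).support
  · rw [Finset.sum_eq_single_of_mem j hj]
    · exact h2 _ _ (hmem j)
    · intro i _ hij
      exact h3 _ _ _ (hmem i) hij
  · rw [Finset.sum_eq_zero]
    · rw [DFinsupp.notMem_support_iff.1 hj]
      simp
    · intro i hi
      have hij : i ≠ j := fun h => hj (h ▸ hi)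
      exact h3 _ _ _ (hmem i) hij

theorem dvd_vdeg (p n : ℕ) (hp : 1 ≤ p) : ((2 * (p - 1) : ℕ) : ℤ) ∣ vdeg p n := by
  rw [vdeg]
  push_cast [Nat.cast_sub hp]
  exact mul_dvd_mul_left 2 (by simpa using sub_dvd_pow_sub_pow (p : ℤ) 1 n)

theorem cochain_sparse (hp : 1 ≤ p) (hR : S.IsZp p R) (hB : B.v = gen (p : R)) (hx : x ∈ D.deg 0)
    (hs : ∀ y : M, ∃ a : MvPolynomial ℕ R, y = a • x) {s : ℕ} {t : ℤ}
    (ht : ¬ ((2 * (p - 1) : ℕ) : ℤ) ∣ t) {z : W (MvPolynomial ℕ R) ⊗[MvPolynomial ℕ R] M}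
    (hz : z ∈ cochain D s t) : z = 0 := by
  refine AddSubgroup.closure_induction (p := fun z _ => z = 0) ?_ rfl
    (fun x y _ _ hx hy => by rw [hx, hy, add_zero]) (fun x _ hx => by rw [hx, neg_zero]) hz
  rintro _ ⟨e, k, y, he, hy, hk, rfl⟩
  obtain ⟨a, ha, rfl⟩ := exists_homog_comod hR hB hx hs hy
  have hsum : ((2 * (p - 1) : ℕ) : ℤ) ∣ e.sum fun i m => (m : ℤ) * vdeg p (i.2 + 1) :=
    Finset.dvd_sum fun i _ => Dvd.dvd.mul_left (dvd_vdeg p _ hp) _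
  have hk' : ¬ ((2 * (p - 1) : ℕ) : ℤ) ∣ k := fun h => ht (hk ▸ dvd_add h hsum)
  have ha0 : a = 0 := by
    by_contra h
    obtain ⟨d, hd⟩ := MvPolynomial.ne_zero_iff.1 h
    have h1 : Finsupp.weight (S.wt p) d = k := ha hd
    apply hk'
    rw [← h1, Finsupp.weight_apply]
    refine Finset.dvd_sum fun i _ => ?_
    change _ ∣ d i • S.wt p i
    rw [nsmul_eq_mul]
    exact Dvd.dvd.mul_left (dvd_vdeg p _ hp) _
  rw [ha0, zero_smul, tmul_zero]

end Comodule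

section Cup

variable {p : ℕ} {A : Type} [CommRing A] {B : S.BPBP p A} {M N K K' : ModuleCat.{0} A}

theorem lTensor_cup (κ : M →ₗ[A] N →ₗ[A] K) (f : K →ₗ[A] K') (D : Comod B N) (s : ℕ)
    (x : W A ⊗[A] M) (y : W A ⊗[A] N) :
    LinearMap.lTensor (W A) f (cup κ D s x y) = cup (κ.compr₂ f) D s x y := by
  unfold cup
  generalize (shiftM D)^[s] y = y
  induction x using TensorProduct.induction_on with
  | zero => simp
  | add x x' hx hx' => simp only [map_add, LinearMap.add_apply, hx, hx']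
  | tmul w m =>
    induction y using TensorProduct.induction_on with
    | zero => simp
    | add y y' hy hy' => simp only [map_add, hy, hy']
    | tmul w' m' => simp [map₂_apply_tmul]

variable {D : Comod B M} {x : M}

theorem cup_mem_Zk (hΔ : DeltaEta B) (hx : D.ψ x = 1 ⊗ₜ x) (hs : ∀ y : M, ∃ a : A, y = a • x)
    {κ : M →ₗ[A] M →ₗ[A] M} (hκ : κ x x = x)
    (hκ' : ∀ i j, ∀ x ∈ D.deg i, ∀ y ∈ D.deg j, κ x y ∈ D.deg (i + j)) {s s' : ℕ} {t t' : ℤ}
    {u v : W A ⊗[A] M} (hu : u ∈ Zk D s t) (hv : v ∈ Zk D s' t') :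
    cup κ D s u v ∈ Zk D (s + s') (t + t') := by
  rw [mem_Zk] at hu hv ⊢
  refine ⟨cup_mem_cochain hκ' hu.1 hv.1, ?_⟩
  obtain ⟨w, hw, rfl⟩ := exists_supported hs hu.1
  obtain ⟨w', rfl⟩ := exists_tmul hs v
  have h1 := hu.2
  have h2 := hv.2
  rw [cobar_gen hx] at h1 h2
  rw [cup_gen hx hκ, cobar_gen hx, cw_mul hΔ s' hw, add_tmul, zsmul_tmul]
  have e1 : (cw B s w * (shift B)^[s + 1] w') ⊗ₜ[A] x = 0 := by
    rw [mul_comm, ← smul_eq_mul, ← smul_tmul', h1, smul_zero]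
  have e2 : (w * (shift B)^[s] (cw B s' w')) ⊗ₜ[A] x = 0 := by
    rw [← smul_eq_mul, ← smul_tmul', ← shiftM_iter_gen hx, h2, iterate_map_zero, smul_zero]
  rw [e1, e2, smul_zero, add_zero]

theorem cup_mem_Bk_left (hΔ : DeltaEta B) (hx : D.ψ x = 1 ⊗ₜ x) (hs : ∀ y : M, ∃ a : A, y = a • x)
    {κ : M →ₗ[A] M →ₗ[A] M} (hκ : κ x x = x)
    (hκ' : ∀ i j, ∀ x ∈ D.deg i, ∀ y ∈ D.deg j, κ x y ∈ D.deg (i + j)) {s s' : ℕ} {t t' : ℤ}
    {u v : W A ⊗[A] M} (hu : u ∈ Bk D s t) (hv : v ∈ Zk D s' t') :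
    cup κ D s u v ∈ Bk D (s + s') (t + t') := by
  cases s with
  | zero =>
    obtain rfl : u = 0 := by simpa [Bk] using hu
    rw [← cupHom_apply, map_zero, AddMonoidHom.zero_apply]
    exact zero_mem _
  | succ n =>
    obtain ⟨u', hu', rfl⟩ := hu
    rw [mem_Zk] at hv
    obtain ⟨w, hw, rfl⟩ := exists_supported hs hu'
    obtain ⟨w', rfl⟩ := exists_tmul hs v
    have h2 := hv.2
    rw [cobar_gen hx] at h2
    rw [show n + 1 + s' = n + s' + 1 by omega]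
    refine ⟨cup κ D n (w ⊗ₜ x) (w' ⊗ₜ x), cup_mem_cochain hκ' hu' hv.1, ?_⟩
    rw [cobarHom_apply, cobarHom_apply, cup_gen hx hκ, cobar_gen hx, cobar_gen hx, cup_gen hx hκ,
      cw_mul hΔ s' hw, add_tmul, zsmul_tmul]
    have e2 : (w * (shift B)^[n] (cw B s' w')) ⊗ₜ[A] x = 0 := by
      rw [← smul_eq_mul, ← smul_tmul', ← shiftM_iter_gen hx, h2, iterate_map_zero, smul_zero]
    rw [e2, smul_zero, add_zero]

theorem cup_mem_Bk_right (hΔ : DeltaEta B) (hx : D.ψ x = 1 ⊗ₜ x) (hs : ∀ y : M, ∃ a : A, y = a • x)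
    {κ : M →ₗ[A] M →ₗ[A] M} (hκ : κ x x = x)
    (hκ' : ∀ i j, ∀ x ∈ D.deg i, ∀ y ∈ D.deg j, κ x y ∈ D.deg (i + j)) {s s' : ℕ} {t t' : ℤ}
    {u v : W A ⊗[A] M} (hu : u ∈ Zk D s t) (hv : v ∈ Bk D s' t') :
    cup κ D s u v ∈ Bk D (s + s') (t + t') := by
  cases s' with
  | zero =>
    obtain rfl : v = 0 := by simpa [Bk] using hv
    rw [← cupHom_apply, map_zero]
    exact zero_mem _
  | succ n =>
    obtain ⟨v', hv', rfl⟩ := hv
    rw [mem_Zk] at hu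
    obtain ⟨w, hw, rfl⟩ := exists_supported hs hu.1
    obtain ⟨w', rfl⟩ := exists_tmul hs v'
    have h1 := hu.2
    rw [cobar_gen hx] at h1
    rw [show s + (n + 1) = s + n + 1 from rfl]
    refine ⟨(-1 : ℤ) ^ s • cup κ D s (w ⊗ₜ x) (w' ⊗ₜ x),
      zsmul_mem (cup_mem_cochain hκ' hu.1 hv') _, ?_⟩
    rw [map_zsmul, cobarHom_apply, cobarHom_apply, cup_gen hx hκ, cobar_gen hx, cobar_gen hx,
      cup_gen hx hκ, cw_mul hΔ n hw, add_tmul, zsmul_tmul]
    have e1 : (cw B s w * (shift B)^[s + 1] w') ⊗ₜ[A] x = 0 := by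
      rw [mul_comm, ← smul_eq_mul, ← smul_tmul', h1, smul_zero]
    rw [e1, zero_add, smul_smul, ← mul_pow]
    simp

end Cup

end Vale.Agent.P257.Q
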