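import Mathlib

/-! Abstract multiplicative relation spectral sequence and the deduction that `v_4` is a
permanent cycle. -/

namespace Vale.Agent.P257.Q

/-- A multiplicative spectral sequence given by additive relations on cocycles. -/
structure MSS (K : Type*) [AddCommGroup K] (q : ℕ) where
  Z : ℕ → ℤ → AddSubgroup K
  Bd : ℕ → ℤ → AddSubgroup K
  E : ℕ → ℕ → ℤ → AddSubgroup (K × K)
  cup : ℕ → K →+ K →+ K
  sparse : ∀ s t, ¬ (q : ℤ) ∣ t → ∀ x ∈ Z s t, x = 0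
  cocycle : ∀ r s t x y, (x, y) ∈ E r s t → x ∈ Z s t ∧ y ∈ Z (s + r) (t + r - 1)
  total : ∀ s t x, x ∈ Z s t → ∃ y, (x, y) ∈ E 2 s t
  second : ∀ s t y, (0, y) ∈ E 2 s t ↔ y ∈ Bd (s + 2) (t + 1)
  cobdry : ∀ r s t x, 2 ≤ r → x ∈ Bd s t → (x, 0) ∈ E r s t
  kernel : ∀ r s t x, 2 ≤ r → ((x, 0) ∈ E r s t ↔ ∃ y, (x, y) ∈ E (r + 1) s t)
  image : ∀ r s t y, 2 ≤ r → ((0, y) ∈ E (r + 1) s t ↔ ∃ x, (x, y) ∈ E r (s + 1) (t + 1))
  leibniz : ∀ r s t s' t' x y x' y', 2 ≤ r → (x, y) ∈ E r s t → (x', y') ∈ E r s' t' →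
    ∃ a b : ℤˣ, (cup s x x', a • cup (s + r) y x' + b • cup s x y') ∈ E r (s + s') (t + t')
  cup_Z : ∀ s t s' t' x y, x ∈ Z s t → y ∈ Z s' t' → cup s x y ∈ Z (s + s') (t + t')
  cup_Bd_left : ∀ s t s' t' x y, x ∈ Bd s t → y ∈ Z s' t' → cup s x y ∈ Bd (s + s') (t + t')
  cup_Bd_right : ∀ s t s' t' x y, x ∈ Z s t → y ∈ Bd s' t' → cup s x y ∈ Bd (s + s') (t + t')
  cup_assoc : ∀ s s' x y z, cup (s + s') (cup s x y) z = cup s x (cup s' y z)

namespace MSS

variable {K : Type*} [AddCommGroup K] {q : ℕ} (S : MSS K q)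

/-- The group `E_2^(s,t)` vanishes. -/
def Van (s : ℕ) (t : ℤ) : Prop := ∀ x ∈ S.Z s t, x ∈ S.Bd s t

theorem van_of_not_dvd {s : ℕ} {t : ℤ} (h : ¬ (q : ℤ) ∣ t) : S.Van s t := fun x hx => by
  rw [S.sparse s t h x hx]; exact zero_mem _

theorem sub_mem_E {r s : ℕ} {t : ℤ} {x x' y y' : K} (h : (x, y) ∈ S.E r s t)
    (h' : (x', y') ∈ S.E r s t) : (x - x', y - y') ∈ S.E r s t := by
  simpa using sub_mem h h'

/-- Coboundaries are in the indeterminacy of `d_r`. -/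
theorem bd_mem {r : ℕ} (hr : 2 ≤ r) : ∀ {s s' : ℕ} {t t' : ℤ} {y : K}, s' = s + r →
    t' = t + r - 1 → y ∈ S.Bd s' t' → (0, y) ∈ S.E r s t := by
  induction r, hr using Nat.le_induction with
  | base =>
    intro s s' t t' y hs ht hy
    rw [S.second]
    have : t + 1 = t' := by rw [ht]; push_cast; ring
    rw [this, ← hs]; exact hy
  | succ r hr ih =>
    intro s s' t t' y hs ht hy
    rw [S.image _ _ _ _ hr]
    exact ⟨0, ih (s := s + 1) (t := t + 1) (by omega) (by push_cast at ht ⊢; omega) hy⟩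

/-- The indeterminacy grows. -/
theorem lift (k : ℕ) : ∀ {r r' s s' : ℕ} {t t' : ℤ} {y : K}, 2 ≤ r → (0, y) ∈ S.E r s' t' →
    s' = s + k → t' = t + k → r' = r + k → (0, y) ∈ S.E r' s t := by
  induction k with
  | zero =>
    intro r r' s s' t t' y _ h hs ht hr
    obtain rfl : s' = s := by omega
    obtain rfl : t' = t := by simpa using ht
    obtain rfl : r' = r := by omega
    exact h
  | succ k ih =>
    intro r r' s s' t t' y h2 h hs ht hr
    obtain rfl : r' = r + k + 1 := by omega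
    rw [S.image _ _ _ _ (by omega)]
    exact ⟨0, ih h2 h (by omega) (by push_cast at ht; omega) rfl⟩

/-- Going down in the indeterminacy, if the sources vanish. -/
theorem drop (k : ℕ) : ∀ {r r' s s' : ℕ} {t t' : ℤ} {y : K}, 2 ≤ r → (0, y) ∈ S.E r' s t →
    s' = s + k → t' = t + k → r' = r + k →
    (∀ j : ℕ, 1 ≤ j → j ≤ k → S.Van (s + j) (t + j)) → (0, y) ∈ S.E r s' t' := by
  induction k with
  | zero =>
    intro r r' s s' t t' y _ h hs ht hr _
    obtain rfl : s' = s := by omega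
    obtain rfl : t' = t := by simpa using ht
    obtain rfl : r' = r := by omega
    exact h
  | succ k ih =>
    intro r r' s s' t t' y h2 h hs ht hr hv
    obtain rfl : r' = r + k + 1 := by omega
    rw [S.image _ _ _ _ (by omega)] at h
    obtain ⟨x, hx⟩ := h
    have hxZ := (S.cocycle _ _ _ _ _ hx).1
    have hxB : x ∈ S.Bd (s + 1) (t + 1) := by simpa using hv 1 le_rfl (by omega) x (by simpa using hxZ)
    have h0 := S.sub_mem_E hx (S.cobdry _ _ _ _ (by omega) hxB)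
    simp only [sub_self, sub_zero] at h0
    refine ih h2 h0 (by omega) (by push_cast at ht; omega) rfl fun j hj hjk => ?_
    have := hv (j + 1) (by omega) (by omega)
    rw [show s + 1 + j = s + (j + 1) by omega, show t + 1 + (j : ℤ) = t + ((j + 1 : ℕ) : ℤ) by
      push_cast; ring]
    exact this

theorem bd_of_drop {r s s' : ℕ} {t t' : ℤ} {y : K} (hr : 2 ≤ r) (h : (0, y) ∈ S.E r s t)
    (hs : s' = s + r) (ht : t' = t + r - 1)
    (hv : ∀ j : ℕ, 1 ≤ j → j ≤ r - 2 → S.Van (s + j) (t + j)) : y ∈ S.Bd s' t' := by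
  have := S.drop (r - 2) (r := 2) (s' := s + (r - 2)) (t' := t + ((r - 2 : ℕ) : ℤ)) le_rfl h rfl rfl
    (by omega) hv
  rw [S.second] at this
  have e1 : s' = s + (r - 2) + 2 := by omega
  have e2 : t' = t + ((r - 2 : ℕ) : ℤ) + 1 := by omega
  rw [e1, e2]
  exact this

/-- Survival, if the targets vanish. -/
theorem extend (k : ℕ) : ∀ {r r' s : ℕ} {t : ℤ} {x : K}, 2 ≤ r → (x, 0) ∈ S.E r s t →
    r' = r + k → (∀ j : ℕ, r < j → j ≤ r' → S.Van (s + j) (t + j - 1)) →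
    (x, 0) ∈ S.E r' s t := by
  induction k with
  | zero =>
    intro r r' s t x _ h hr _
    obtain rfl : r' = r := by omega
    exact h
  | succ k ih =>
    intro r r' s t x h2 h hr hv
    obtain rfl : r' = r + k + 1 := by omega
    have h1 := ih h2 h rfl fun j hj hj' => hv j hj (by omega)
    rw [S.kernel _ _ _ _ (by omega)] at h1
    obtain ⟨y, hy⟩ := h1
    have hyZ := (S.cocycle _ _ _ _ _ hy).2
    have hyB := hv (r + k + 1) (by omega) le_rfl y hyZ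
    have h0 := S.bd_mem (r := r + k + 1) (by omega) rfl rfl hyB
    simpa using S.sub_mem_E hy h0

theorem start {s : ℕ} {t : ℤ} {x : K} (hx : x ∈ S.Z s t) (hv : S.Van (s + 2) (t + 2 - 1)) :
    (x, 0) ∈ S.E 2 s t := by
  obtain ⟨y, hy⟩ := S.total _ _ _ hx
  have hyB := hv y (S.cocycle _ _ _ _ _ hy).2
  have h0 := S.bd_mem (r := 2) le_rfl rfl rfl hyB
  simpa using S.sub_mem_E hy h0

/-- A cocycle all of whose targets up to `r` vanish survives. -/
theorem survive {r s : ℕ} {t : ℤ} {x : K} (h2 : 2 ≤ r) (hx : x ∈ S.Z s t)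
    (hv : ∀ j : ℕ, 2 ≤ j → j ≤ r → S.Van (s + j) (t + j - 1)) : (x, 0) ∈ S.E r s t :=
  S.extend (r - 2) le_rfl (S.start hx (by simpa using hv 2 le_rfl h2)) (by omega)
    fun j hj hj' => hv j (by omega) hj'

/-- The next differential. -/
theorem next {r s : ℕ} {t : ℤ} {x : K} (h2 : 2 ≤ r) (hx : (x, 0) ∈ S.E r s t) :
    ∃ y ∈ S.Z (s + (r + 1)) (t + r), (x, y) ∈ S.E (r + 1) s t := by
  obtain ⟨y, hy⟩ := (S.kernel _ _ _ _ h2).1 hx
  refine ⟨y, ?_, hy⟩
  have := (S.cocycle _ _ _ _ _ hy).2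
  have e : t + (r : ℤ) = t + ((r + 1 : ℕ) : ℤ) - 1 := by push_cast; ring
  rw [e]
  exact this

theorem van_target {s j : ℕ} {N : ℤ} (hj : 1 ≤ j)
    (h : ∀ k : ℕ, j = k * q + 1 → S.Van (s + (k * q + 1)) (q * (N + k))) :
    S.Van (s + j) (q * N + j - 1) := by
  by_cases hd : (q : ℤ) ∣ (j : ℤ) - 1
  · obtain ⟨c, hc⟩ := hd
    have hd' : q ∣ j - 1 := by
      have : ((j - 1 : ℕ) : ℤ) = q * c := by rw [Nat.cast_sub hj]; simpa using hc
      exact Int.natCast_dvd_natCast.1 ⟨c, this⟩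
    obtain ⟨k, hk⟩ := hd'
    have hjk : j = k * q + 1 := by rw [mul_comm]; omega
    have := h k hjk
    rw [hjk]
    have e : (q : ℤ) * (N + k) = q * N + ((k * q + 1 : ℕ) : ℤ) - 1 := by push_cast; ring
    rw [← e]; exact this
  · refine S.van_of_not_dvd fun hd' => hd ?_
    have : (q : ℤ) ∣ (q * N + j - 1) - q * N := dvd_sub hd' (dvd_mul_right _ _)
    have e : (q * N + j - 1) - q * N = (j : ℤ) - 1 := by ring
    rwa [e] at this

theorem van_source {s j : ℕ} {N : ℤ}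
    (h : ∀ k : ℕ, j = k * q → S.Van (s + k * q) (q * (N + k))) :
    S.Van (s + j) (q * N + j) := by
  by_cases hd : (q : ℤ) ∣ (j : ℤ)
  · obtain ⟨k, hk⟩ := Int.natCast_dvd_natCast.1 hd
    have hjk : j = k * q := by rw [mul_comm]; exact hk
    have := h k hjk
    rw [hjk]
    have e : (q : ℤ) * (N + k) = q * N + ((k * q : ℕ) : ℤ) := by push_cast; ring
    rw [← e]; exact this
  · refine S.van_of_not_dvd fun hd' => hd ?_
    have : (q : ℤ) ∣ (q * N + j) - q * N := dvd_sub hd' (dvd_mul_right _ _)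
    have e : (q * N + j) - q * N = (j : ℤ) := by ring
    rwa [e] at this

/-- Step 1: `d_(q+1) v = 0`. -/
theorem step_one (hq : 2 ≤ q) {e f : ℤ} {v h' : K} (hv : v ∈ S.Z 0 (q * e))
    (hh : h' ∈ S.Z 1 (q * f)) (hhv : S.cup 1 h' v ∈ S.Bd 1 (q * (e + f)))
    (F2 : ∀ z ∈ S.Z (q + 1) (q * (e + 1)), ∀ y ∈ S.Z (q + 2) (q * (f + 1)),
      S.cup 1 h' z + S.cup (q + 2) y v ∈ S.Bd (q + 2) (q * (e + 1 + f)) →
        z ∈ S.Bd (q + 1) (q * (e + 1))) :
    (v, 0) ∈ S.E (q + 1) 0 (q * e) := by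
  have hvan : ∀ {s : ℕ} {N : ℤ} (j : ℕ), 2 ≤ j → j ≤ q → S.Van (s + j) (q * N + j - 1) := by
    intro s N j h2 hjq
    refine S.van_target (by omega) fun k hk => ?_
    exfalso
    rcases k with _ | k
    · omega
    · rw [Nat.succ_mul] at hk; omega
  have hv0 : (v, 0) ∈ S.E q 0 (q * e) := S.survive hq hv fun j h2 hj => by simpa using hvan (s := 0) j h2 hj
  have hh0 : (h', 0) ∈ S.E q 1 (q * f) := S.survive hq hh fun j h2 hj => hvan (s := 1) j h2 hj
  obtain ⟨z, hzZ, hz⟩ := S.next hq hv0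
  obtain ⟨y, hyZ, hy⟩ := S.next hq hh0
  have e1 : (q : ℤ) * e + q = q * (e + 1) := by ring
  have e2 : (q : ℤ) * f + q = q * (f + 1) := by ring
  rw [e1, zero_add] at hzZ
  rw [e2, show 1 + (q + 1) = q + 2 by omega] at hyZ
  obtain ⟨a, b, hab⟩ := S.leibniz _ _ _ _ _ _ _ _ _ (by omega) hy hz
  rw [show 1 + (q + 1) = q + 2 by omega] at hab
  have h0 := S.sub_mem_E hab (S.cobdry _ _ _ _ (by omega)
    (by rw [show (1 : ℕ) + 0 = 1 from rfl, show (q : ℤ) * f + q * e = q * (e + f) by ring]; exact hhv))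
  simp only [sub_self, sub_zero] at h0
  have hB : a • S.cup (q + 2) y v + b • S.cup 1 h' z ∈ S.Bd (q + 2) (q * (e + 1 + f)) := by
    refine S.bd_of_drop (by omega) h0 (by omega) (by push_cast; ring) fun j h1 hj => ?_
    rw [show (q : ℤ) * f + q * e + j = q * (f + e) + j by ring]
    refine S.van_source (s := 1 + 0) fun k hk => ?_
    exfalso
    rcases k with _ | k
    · omega
    · rw [Nat.succ_mul] at hk; omega
  have hzB : z ∈ S.Bd (q + 1) (q * (e + 1)) := by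
    have hyZ' : b⁻¹ • a • y ∈ S.Z (q + 2) (q * (f + 1)) := by
      rcases Int.units_eq_one_or a with rfl | rfl <;> rcases Int.units_eq_one_or b with rfl | rfl <;>
        simpa using hyZ
    refine F2 z hzZ (b⁻¹ • a • y) hyZ' ?_
    have : b⁻¹ • (a • S.cup (q + 2) y v + b • S.cup 1 h' z) ∈ S.Bd (q + 2) (q * (e + 1 + f)) := by
      rcases Int.units_eq_one_or b with rfl | rfl
      · simpa using hB
      · have := neg_mem hB
        rw [neg_add] at this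
        simpa using this
    convert this using 1
    rcases Int.units_eq_one_or a with rfl | rfl <;> rcases Int.units_eq_one_or b with rfl | rfl <;>
      simp [add_comm]
  have h1 := S.bd_mem (r := q + 1) (s := 0) (t := q * e) (by omega) (by omega) (by push_cast; ring) hzB
  simpa using S.sub_mem_E hz h1

theorem unit_smul_mem {α : Type*} [AddCommGroup α] (G : AddSubgroup α) (a : ℤˣ) {x : α} :
    a • x ∈ G ↔ x ∈ G := by
  rcases Int.units_eq_one_or a with rfl | rfl <;> simp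

theorem cup_E {r s : ℕ} {t τ : ℤ} {b x y : K} (hr : 2 ≤ r) (hb : (b, 0) ∈ S.E r 2 τ)
    (h : (x, y) ∈ S.E r s t) : ∃ u : ℤˣ, (S.cup 2 b x, u • S.cup 2 b y) ∈ S.E r (s + 2) (t + τ) := by
  obtain ⟨a, u, h1⟩ := S.leibniz _ _ _ _ _ _ _ _ _ hr hb h
  refine ⟨u, ?_⟩
  rw [show s + 2 = 2 + s by omega, show t + τ = τ + t by ring]
  simpa using h1

theorem cup_E_iter {r : ℕ} {τ : ℤ} {b : K} (hr : 2 ≤ r) (hb : (b, 0) ∈ S.E r 2 τ) (n : ℕ) :
    ∀ {s : ℕ} {t : ℤ} {x y : K}, (x, y) ∈ S.E r s t →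
    ∃ u : ℤˣ, ((S.cup 2 b)^[n] x, u • (S.cup 2 b)^[n] y) ∈ S.E r (s + 2 * n) (t + n * τ) := by
  induction n with
  | zero => intro s t x y h; exact ⟨1, by simpa using h⟩
  | succ n ih =>
    intro s t x y h
    obtain ⟨u, hu⟩ := ih h
    obtain ⟨u', hu'⟩ := S.cup_E hr hb hu
    refine ⟨u' * u, ?_⟩
    rw [Function.iterate_succ_apply', Function.iterate_succ_apply',
      show s + 2 * (n + 1) = s + 2 * n + 2 by ring,
      show t + ((n + 1 : ℕ) : ℤ) * τ = t + n * τ + τ by push_cast; ring]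
    rw [mul_smul]
    have e : S.cup 2 b (u • (S.cup 2 b)^[n] y) = u • S.cup 2 b ((S.cup 2 b)^[n] y) := by
      rcases Int.units_eq_one_or u with rfl | rfl <;> simp
    rwa [e] at hu'

theorem iter_zsmul (b : K) (n : ℕ) (c : ℤ) (x : K) :
    (S.cup 2 b)^[n] (c • x) = c • (S.cup 2 b)^[n] x := by
  induction n with
  | zero => rfl
  | succ n ih => rw [Function.iterate_succ_apply', Function.iterate_succ_apply', ih, map_zsmul]

theorem iter_add (b : K) (n : ℕ) (x y : K) :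
    (S.cup 2 b)^[n] (x + y) = (S.cup 2 b)^[n] x + (S.cup 2 b)^[n] y := by
  induction n with
  | zero => rfl
  | succ n ih =>
    rw [Function.iterate_succ_apply', Function.iterate_succ_apply', Function.iterate_succ_apply',
      ih, map_add]

theorem iter_sub (b : K) (n : ℕ) (x y : K) :
    (S.cup 2 b)^[n] (x - y) = (S.cup 2 b)^[n] x - (S.cup 2 b)^[n] y := by
  have := S.iter_add b n (x - y) y
  rw [sub_add_cancel] at this
  rw [this, add_sub_cancel_right]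

theorem one_le_of_eq {j k : ℕ} (h2 : 2 ≤ j) (hk : j = k * q + 1) : 1 ≤ k := by
  rcases k with _ | k
  · omega
  · omega

theorem not_mul {j k : ℕ} (h1 : 1 ≤ j) (h2 : j ≤ q - 1) (hk : j = k * q) : False := by
  rcases k with _ | k
  · omega
  · rw [Nat.succ_mul] at hk; omega

/-- `w` survives, and the Toda differential times `w`. -/
theorem toda_w {m : ℕ} (hm : 1 ≤ m) (hqm : q = 2 * m + 2) {N A : ℤ} {w Y Bt z3 : K} {c : ℤ}
    (hw : w ∈ S.Z 5 (q * N))
    (toda : (Y, Bt) ∈ S.E ((m + 1) * q + 1) (2 * m + 3) (q * A))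
    (hYw : S.cup (2 * m + 3) Y w ∈ S.Bd (q + 6) (q * (A + N)))
    (hBw : S.cup (2 * m + 3 + ((m + 1) * q + 1)) Bt w = c • z3)
    (F5 : ∀ k : ℕ, 1 ≤ k → k ≤ m + 1 → S.Van (5 + (k * q + 1)) (q * (N + k))) :
    ∃ (x : K) (a : ℤˣ), (x, a • c • z3) ∈ S.E (m * q + 1) (2 * q + 6) (q * (A + N + 1)) := by
  have hw0 : (w, 0) ∈ S.E ((m + 1) * q + 1) 5 (q * N) := by
    refine S.survive (by nlinarith) hw fun j h2 hj => S.van_target (by omega) fun k hk =>
      F5 k (one_le_of_eq h2 hk) ?_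
    by_contra hcon
    have : (m + 2) * q ≤ k * q := Nat.mul_le_mul_right q (by omega)
    nlinarith
  obtain ⟨a, a', h1⟩ := S.leibniz _ _ _ _ _ _ _ _ _ (by nlinarith) toda hw0
  rw [hBw, map_zero, smul_zero, add_zero] at h1
  have es : 2 * m + 3 + 5 = q + 6 := by omega
  have et : (q : ℤ) * A + q * N = q * (A + N) := by ring
  rw [es, et] at h1
  have h2 := S.sub_mem_E h1 (S.cobdry _ _ _ _ (by nlinarith) hYw)
  simp only [sub_self, sub_zero] at h2
  have h3 := S.drop (q - 1) (r := m * q + 2) (by omega) h2 rfl rfl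
    (by rw [add_mul, one_mul]; omega) (fun j hj1 hj2 => S.van_source fun k hk =>
      (not_mul hj1 hj2 hk).elim)
  rw [show m * q + 2 = m * q + 1 + 1 from rfl, S.image _ _ _ _ (by nlinarith)] at h3
  obtain ⟨x, hx⟩ := h3
  have es : q + 6 + (q - 1) + 1 = 2 * q + 6 := by omega
  have et : (q : ℤ) * (A + N) + ((q - 1 : ℕ) : ℤ) + 1 = q * (A + N + 1) := by
    rw [Nat.cast_sub (by omega)]; push_cast; ring
  rw [es, et] at hx
  exact ⟨x, a, hx⟩

/-- `T` survives, and its differential. -/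
theorem T_diff {m : ℕ} (hm : 1 ≤ m) (hqm : q = 2 * m + 2) {e : ℤ} {T : K} {Wz : K → Prop}
    (F3 : ∀ k : ℕ, 2 ≤ k → k ≠ m + 2 → S.Van (k * q + 1) (q * (e + k)))
    (F4 : ∀ y ∈ S.Z ((m + 2) * q + 1) (q * (e + (m + 2))), ∃ z, Wz z ∧
      y - z ∈ S.Bd ((m + 2) * q + 1) (q * (e + (m + 2))))
    (hT : T ∈ S.Z (2 * q) (q * (e + 2))) :
    ∃ z, Wz z ∧ (T, z) ∈ S.E (m * q + 1) (2 * q) (q * (e + 2)) := by
  have hT0 : (T, 0) ∈ S.E (m * q) (2 * q) (q * (e + 2)) := by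
    refine S.survive (by nlinarith) hT fun j h2 hj => S.van_target (by omega) fun k hk => ?_
    have hk1 : 1 ≤ k := one_le_of_eq h2 hk
    have hk2 : k + 1 ≤ m := by
      by_contra hcon
      have : m * q ≤ k * q := Nat.mul_le_mul_right q (by omega)
      omega
    have := F3 (k + 2) (by omega) (by omega)
    rw [show (k + 2) * q + 1 = 2 * q + (k * q + 1) by ring] at this
    convert this using 2
    push_cast; ring
  obtain ⟨y, hyZ, hy⟩ := S.next (by nlinarith) hT0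
  have es : 2 * q + (m * q + 1) = (m + 2) * q + 1 := by ring
  have et : (q : ℤ) * (e + 2) + ((m * q : ℕ) : ℤ) = q * (e + (m + 2)) := by
    push_cast; ring
  rw [es, et] at hyZ
  obtain ⟨z, hWz, hn⟩ := F4 y hyZ
  have := S.bd_mem (r := m * q + 1) (s := 2 * q) (t := q * (e + 2)) (by nlinarith) (by omega)
    (by push_cast; ring) hn
  exact ⟨z, hWz, by simpa using S.sub_mem_E hy this⟩

theorem b_survives {m : ℕ} (hm : 1 ≤ m) (hqm : q = 2 * m + 2) {N : ℤ} {b : K}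
    (hb : b ∈ S.Z 2 (q * N)) (F8 : ∀ k : ℕ, 1 ≤ k → k ≤ m → S.Van (2 + (k * q + 1)) (q * (N + k))) :
    (b, 0) ∈ S.E (m * q + 1) 2 (q * N) := by
  refine S.survive (by nlinarith) hb fun j h2 hj => S.van_target (by omega) fun k hk =>
    F8 k (one_le_of_eq h2 hk) ?_
  by_contra hcon
  have : (m + 1) * q ≤ k * q := Nat.mul_le_mul_right q (by omega)
  nlinarith

theorem units_zsmul (a : ℤˣ) (x : K) : a • x = (a : ℤ) • x := rfl

/-- Step 2: the Toda type differential. -/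
theorem step_two {m : ℕ} (hm : 1 ≤ m) (hqm : q = 2 * m + 2) {e N A P : ℤ}
    (hP : P = m + 2) (hAN : A + N = e + 3 * P + 1)
    {b w Y Bt z : K} {c : ℤ} (hc : IsCoprime c P) {Wz : K → Prop}
    (hWz : ∀ z, Wz z → z ∈ S.Z ((m + 2) * q + 1) (q * (e + P))) (hz : Wz z)
    (pK : ∀ x : K, P • x = 0)
    (hb : b ∈ S.Z 2 (q * P)) (hw : w ∈ S.Z 5 (q * N))
    (toda : (Y, Bt) ∈ S.E ((m + 1) * q + 1) (2 * m + 3) (q * A))
    (hYw : S.cup (2 * m + 3) Y w ∈ S.Bd (q + 6) (q * (A + N)))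
    (hBw : S.cup (2 * m + 3 + ((m + 1) * q + 1)) Bt w = c • (S.cup 2 b)^[3] z)
    (F3 : ∀ k : ℕ, 2 ≤ k → k ≠ m + 2 → S.Van (k * q + 1) (q * (e + k)))
    (F4 : ∀ y ∈ S.Z ((m + 2) * q + 1) (q * (e + P)), ∃ z, Wz z ∧
      y - z ∈ S.Bd ((m + 2) * q + 1) (q * (e + P)))
    (F5 : ∀ k : ℕ, 1 ≤ k → k ≤ m + 1 → S.Van (5 + (k * q + 1)) (q * (N + k)))
    (F6 : ∀ j : ℕ, 3 ≤ j → j ≤ m + 1 → S.Van (j * q + 6) (q * (e + 3 * P + j)))
    (F6' : ∀ y ∈ S.Z (2 * q + 6) (q * (e + 3 * P + 2)), ∃ T ∈ S.Z (2 * q) (q * (e + 2)),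
      y - (S.cup 2 b)^[3] T ∈ S.Bd (2 * q + 6) (q * (e + 3 * P + 2)))
    (F7 : ∀ y ∈ S.Z ((m + 2) * q + 1) (q * (e + P)),
      (S.cup 2 b)^[3] y ∈ S.Bd ((m + 2) * q + 7) (q * (e + 4 * P)) →
        y ∈ S.Bd ((m + 2) * q + 1) (q * (e + P)))
    (F8 : ∀ k : ℕ, 1 ≤ k → k ≤ m → S.Van (2 + (k * q + 1)) (q * (P + k))) :
    (0, z) ∈ S.E ((m + 2) * q + 1) 0 (q * e) := by
  obtain ⟨x, a, hx⟩ := S.toda_w hm hqm hw toda hYw hBw F5
  rw [show A + N + 1 = e + 3 * P + 2 by rw [hAN]; ring] at hx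
  obtain ⟨T, hT, hxT⟩ := F6' x (S.cocycle _ _ _ _ _ hx).1
  obtain ⟨z', hz', h4⟩ := S.T_diff hm hqm F3 (by rw [hP] at F4; exact F4) hT
  obtain ⟨u, hu⟩ := S.cup_E_iter (by nlinarith) (S.b_survives hm hqm hb F8) 3 h4
  have et : (q : ℤ) * (e + 2) + ((3 : ℕ) : ℤ) * (q * P) = q * (e + 3 * P + 2) := by push_cast; ring
  rw [show 2 * q + 2 * 3 = 2 * q + 6 from rfl, et] at hu
  have h5 := S.sub_mem_E (S.sub_mem_E hx hu) (S.cobdry _ _ _ _ (by nlinarith) hxT)
  simp only [sub_self, sub_zero] at h5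
  rw [units_zsmul, units_zsmul, ← S.iter_zsmul, ← S.iter_zsmul, ← S.iter_zsmul,
    ← S.iter_sub] at h5
  have h6 := S.bd_of_drop (s' := (m + 2) * q + 7) (t' := q * (e + 4 * P))
    (by nlinarith) h5 (by ring) (by rw [hP]; push_cast; ring)
    (fun j hj1 hj2 => S.van_source fun k hk => by
      have hk1 : 1 ≤ k := by
        rcases k with _ | k
        · omega
        · omega
      have hk2 : k + 1 ≤ m := by
        by_contra hcon
        have : m * q ≤ k * q := Nat.mul_le_mul_right q (by omega)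
        omega
      have := F6 (k + 2) (by omega) (by omega)
      rw [show (k + 2) * q + 6 = 2 * q + 6 + k * q by ring] at this
      convert this using 2
      push_cast; ring)
  have h7 := F7 _ (sub_mem (zsmul_mem (zsmul_mem (hWz z hz) _) _) (zsmul_mem (hWz z' hz') _)) h6
  have h8 := S.bd_mem (r := (m + 2) * q + 1) (s := 0) (t := q * e) (by nlinarith) (by ring)
    (by rw [hP]; push_cast; ring) h7
  have h9 : (0, z') ∈ S.E ((m + 2) * q + 1) 0 (q * e) := by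
    have h10 : (0, z') ∈ S.E (m * q + 1 + 1) (2 * q - 1) (q * (e + 2) - 1) := by
      rw [S.image _ _ _ _ (by nlinarith)]
      refine ⟨T, ?_⟩
      rw [show 2 * q - 1 + 1 = 2 * q by omega, sub_add_cancel]
      exact h4
    refine S.lift (2 * q - 1) (by nlinarith) h10 (by omega) ?_ ?_
    · rw [Nat.cast_sub (by omega)]; push_cast; ring
    · rw [add_mul]; omega
  have h11 : (0, c • z) ∈ S.E ((m + 2) * q + 1) 0 (q * e) := by
    have h12 : (0, (a : ℤ) • c • z) ∈ S.E ((m + 2) * q + 1) 0 (q * e) := by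
      have := add_mem h8 (zsmul_mem h9 (u : ℤ))
      simpa using this
    have := zsmul_mem h12 (a : ℤ)
    rcases Int.units_eq_one_or a with rfl | rfl <;> simpa using this
  obtain ⟨α, β, hαβ⟩ := hc
  have := zsmul_mem h11 α
  have e1 : α • c • z = z := by
    rw [smul_smul]
    calc (α * c) • z = (α * c) • z + β • (P • z) := by rw [pK, smul_zero, add_zero]
      _ = (α * c + β * P) • z := by rw [smul_smul, add_smul]
      _ = z := by rw [hαβ, one_smul]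
  have e2 : α • ((0 : K), c • z) = (0, z) := by
    rw [Prod.smul_mk, smul_zero, e1]
  rwa [e2] at this

/-- The whole deduction: `v` is a permanent cycle. -/
theorem permanent {m : ℕ} (hm : 1 ≤ m) (hqm : q = 2 * m + 2) {e f N A P : ℤ}
    (hP : P = m + 2) (hAN : A + N = e + 3 * P + 1)
    {v h' b Y Bt : K} {c : ℤ} (hc : IsCoprime c P)
    (hv : v ∈ S.Z 0 (q * e)) (hh : h' ∈ S.Z 1 (q * f)) (hhv : S.cup 1 h' v ∈ S.Bd 1 (q * (e + f)))
    (F2 : ∀ z ∈ S.Z (q + 1) (q * (e + 1)), ∀ y ∈ S.Z (q + 2) (q * (f + 1)),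
      S.cup 1 h' z + S.cup (q + 2) y v ∈ S.Bd (q + 2) (q * (e + 1 + f)) →
        z ∈ S.Bd (q + 1) (q * (e + 1)))
    (pK : ∀ x : K, P • x = 0)
    (hb : b ∈ S.Z 2 (q * P)) {zz : K → K}
    (hz : ∀ w ∈ S.Z 5 (q * N), zz w ∈ S.Z ((m + 2) * q + 1) (q * (e + P)))
    (toda : (Y, Bt) ∈ S.E ((m + 1) * q + 1) (2 * m + 3) (q * A))
    (hYw : ∀ w ∈ S.Z 5 (q * N), S.cup (2 * m + 3) Y w ∈ S.Bd (q + 6) (q * (A + N)))
    (hBw : ∀ w, S.cup (2 * m + 3 + ((m + 1) * q + 1)) Bt w = c • (S.cup 2 b)^[3] (zz w))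
    (F3 : ∀ k : ℕ, 2 ≤ k → k ≠ m + 2 → S.Van (k * q + 1) (q * (e + k)))
    (F4 : ∀ y ∈ S.Z ((m + 2) * q + 1) (q * (e + P)), ∃ w ∈ S.Z 5 (q * N),
      y - zz w ∈ S.Bd ((m + 2) * q + 1) (q * (e + P)))
    (F5 : ∀ k : ℕ, 1 ≤ k → k ≤ m + 1 → S.Van (5 + (k * q + 1)) (q * (N + k)))
    (F6 : ∀ j : ℕ, 3 ≤ j → j ≤ m + 1 → S.Van (j * q + 6) (q * (e + 3 * P + j)))
    (F6' : ∀ y ∈ S.Z (2 * q + 6) (q * (e + 3 * P + 2)), ∃ T ∈ S.Z (2 * q) (q * (e + 2)),
      y - (S.cup 2 b)^[3] T ∈ S.Bd (2 * q + 6) (q * (e + 3 * P + 2)))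
    (F7 : ∀ y ∈ S.Z ((m + 2) * q + 1) (q * (e + P)),
      (S.cup 2 b)^[3] y ∈ S.Bd ((m + 2) * q + 7) (q * (e + 4 * P)) →
        y ∈ S.Bd ((m + 2) * q + 1) (q * (e + P)))
    (F8 : ∀ k : ℕ, 1 ≤ k → k ≤ m → S.Van (2 + (k * q + 1)) (q * (P + k)))
    (r : ℕ) (hr : 2 ≤ r) : (v, 0) ∈ S.E r 0 (q * e) := by
  have hS2 : ∀ w ∈ S.Z 5 (q * N), (0, zz w) ∈ S.E ((m + 2) * q + 1) 0 (q * e) := fun w hw =>
    S.step_two hm hqm hP hAN hc (Wz := fun z => ∃ w ∈ S.Z 5 (q * N), z = zz w)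
      (by rintro _ ⟨w, hw, rfl⟩; exact hz w hw) ⟨w, hw, rfl⟩ pK hb hw toda (hYw w hw) (hBw w) F3
      (fun y hy => by obtain ⟨w, hw, h⟩ := F4 y hy; exact ⟨zz w, ⟨w, hw, rfl⟩, h⟩) F5 F6 F6' F7 F8
  have hvan : ∀ j, q + 1 < j → j ≠ (m + 2) * q + 1 → S.Van (0 + j) (q * e + j - 1) := by
    intro j hj hj'
    refine S.van_target (by omega) fun k hk => ?_
    rw [zero_add]
    refine F3 k ?_ ?_
    · by_contra hcon
      have : k * q ≤ 1 * q := Nat.mul_le_mul_right q (by omega)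
      omega
    · rintro rfl; exact hj' hk
  have h1 := S.step_one (by omega) hv hh hhv F2
  -- going down is always possible
  have hdown : ∀ r, 2 ≤ r → ∀ k, (v, 0) ∈ S.E (r + k) 0 (q * e) → (v, 0) ∈ S.E r 0 (q * e) := by
    intro r hr k
    induction k with
    | zero => exact id
    | succ k ih => exact fun h => ih ((S.kernel _ _ _ _ (by omega)).2 ⟨0, h⟩)
  have hle : q + 1 ≤ (m + 2) * q := by nlinarith
  have h2 : (v, 0) ∈ S.E ((m + 2) * q) 0 (q * e) :=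
    S.extend ((m + 2) * q - (q + 1)) (by omega) h1 (by omega) fun j hj hj' => hvan j hj (by omega)
  obtain ⟨y, hyZ, hy⟩ := S.next (by nlinarith) h2
  have es : 0 + ((m + 2) * q + 1) = (m + 2) * q + 1 := by omega
  have et : (q : ℤ) * e + (((m + 2) * q : ℕ) : ℤ) = q * (e + P) := by rw [hP]; push_cast; ring
  rw [es, et] at hyZ
  obtain ⟨w, hw, hn⟩ := F4 y hyZ
  have h3 : (v, 0) ∈ S.E ((m + 2) * q + 1) 0 (q * e) := by
    have h4 := S.bd_mem (r := (m + 2) * q + 1) (s := 0) (t := q * e) (by nlinarith) (by ring)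
      (by rw [hP]; push_cast; ring) hn
    have h5 := S.sub_mem_E (S.sub_mem_E hy h4) (hS2 w hw)
    simpa using h5
  rcases le_or_gt r ((m + 2) * q + 1) with h | h
  · obtain ⟨k, hk⟩ := Nat.exists_eq_add_of_le h
    exact hdown r hr k (hk ▸ h3)
  · obtain ⟨k, hk⟩ := Nat.exists_eq_add_of_lt h
    exact S.extend (k + 1) (by nlinarith) h3 (by omega) fun j hj hj' => hvan j (by nlinarith) (by omega)

end MSS

end Vale.Agent.P257.Q
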