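import Vale.Agent.P257.Q.Facts
import Vale.Agent.P257.Q.SS
import Vale.Agent.P257.Bdl.B1

/-! The cobar complex of a comodule: additivity, cup products, Leibniz formula. -/

namespace Vale.Agent.P257.Q

open MvPolynomial TensorProduct Finset Vale.Agent.P257.S

section General

variable {p : ℕ} {A : Type} [CommRing A] {B : S.BPBP p A} {M N K : ModuleCat.{0} A}

/-- The cobar differential, bundled. -/
noncomputable def cobarHom (D : Comod B M) (s : ℕ) : W A ⊗[A] M →+ W A ⊗[A] M :=
  shiftM D + ∑ i ∈ range s, ((-1 : ℤ) ^ (i + 1)) •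
    (LinearMap.rTensor M (face B i).toLinearMap).toAddMonoidHom +
    ((-1 : ℤ) ^ (s + 1)) • AddMonoidHom.id _

theorem cobarHom_apply (D : Comod B M) (s : ℕ) (x : W A ⊗[A] M) :
    cobarHom D s x = cobar D s x := by
  simp [cobarHom, cobar, AddMonoidHom.finsetSum_apply]

theorem shiftM_tmul (D : Comod B M) (w : W A) (x : M) : shiftM D (w ⊗ₜ x) =
    shift B w • LinearMap.rTensor M (rename fun n => ((0 : ℕ), n)).toLinearMap (D.ψ x) := rfl

/-- Cocycles as a subgroup. -/
noncomputable def Zk (D : Comod B M) (s : ℕ) (t : ℤ) : AddSubgroup (W A ⊗[A] M) :=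
  cochain D s t ⊓ (cobarHom D s).ker

theorem mem_Zk {D : Comod B M} {s : ℕ} {t : ℤ} {x : W A ⊗[A] M} :
    x ∈ Zk D s t ↔ IsCocycle D s t x := by
  rw [Zk, AddSubgroup.mem_inf, AddMonoidHom.mem_ker, cobarHom_apply, IsCocycle]

/-- Coboundaries as a subgroup. -/
noncomputable def Bk (D : Comod B M) (s : ℕ) (t : ℤ) : AddSubgroup (W A ⊗[A] M) :=
  match s with
  | 0 => ⊥
  | n + 1 => (cochain D n t).map (cobarHom D n)

theorem mem_Bk {D : Comod B M} {s : ℕ} {t : ℤ} {x : W A ⊗[A] M} :
    x ∈ Bk D s t ↔ IsCobdry D s t x := by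
  cases s with
  | zero =>
    simp [Bk, IsCobdry]
  | succ n =>
    simp only [Bk, AddSubgroup.mem_map, IsCobdry, cobarHom_apply]
    constructor
    · rintro ⟨y, hy, rfl⟩
      exact Or.inr ⟨n, rfl, y, hy, rfl⟩
    · rintro (rfl | ⟨m, hm, y, hy, rfl⟩)
      · exact ⟨0, zero_mem _, by rw [← cobarHom_apply, map_zero]⟩
      · obtain rfl : m = n := by omega
        exact ⟨y, hy, rfl⟩

/-- The cup product, bundled. -/
noncomputable def cupHom (κ : M →ₗ[A] N →ₗ[A] K) (D : Comod B N) (s : ℕ) :
    W A ⊗[A] M →+ W A ⊗[A] N →+ W A ⊗[A] K :=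
  AddMonoidHom.mk' (fun x => AddMonoidHom.mk' (fun y => cup κ D s x y) fun y y' => by
      simp only [cup, iterate_map_add, map_add])
    fun x x' => by ext y; simp [cup, map_add]

theorem cupHom_apply (κ : M →ₗ[A] N →ₗ[A] K) (D : Comod B N) (s : ℕ) (x : W A ⊗[A] M)
    (y : W A ⊗[A] N) : cupHom κ D s x y = cup κ D s x y := rfl

end General

section Words

variable {p : ℕ} {A : Type} [CommRing A] (B : S.BPBP p A)

theorem shift_X (x : ℕ × ℕ) : shift B (X x) = X (x.1 + 1, x.2) := by simp [shift]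

theorem shift_C (a : A) : shift B (C a) = src B 1 a := by simp [shift]

theorem src_zero : src B 0 = (C : A →+* W A) := rfl

theorem src_succ (j : ℕ) (a : A) :
    src B (j + 1) a = eval₂Hom (src B j) (fun n => (X (j, n) : W A)) (B.η a) := rfl

theorem shift_src (j : ℕ) (a : A) : shift B (src B j a) = src B (j + 1) a := by
  induction j generalizing a with
  | zero => rw [src_zero, shift_C]
  | succ j ih =>
    rw [src_succ, src_succ]
    have : (shift B).comp (eval₂Hom (src B j) fun n => (X (j, n) : W A)) =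
        eval₂Hom (src B (j + 1)) (fun n => X (j + 1, n)) := by
      apply MvPolynomial.ringHom_ext
      · intro r
        simp [ih]
      · intro i
        simp [shift_X]
    exact RingHom.congr_fun this (B.η a)

theorem face_C (i : ℕ) (a : A) : face B i (C a) = C a := (face B i).commutes a

theorem face_X_lt {i : ℕ} {x : ℕ × ℕ} (h : x.1 < i) : face B i (X x) = X x := by
  simp [face, h]

theorem face_X_eq (i n : ℕ) : face B i (X (i, n)) =
    eval₂Hom (src B i) (Sum.elim (fun n => X (i, n)) fun n => X (i + 1, n)) (B.Δ (X n)) := by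
  simp [face]

theorem face_X_gt {i : ℕ} {x : ℕ × ℕ} (h : i < x.1) : face B i (X x) = X (x.1 + 1, x.2) := by
  simp [face, not_lt.2 h.le, h.ne']

theorem face_src_one {i : ℕ} (hi : 0 < i) (a : A) : face B i (src B 1 a) = src B 1 a := by
  rw [src_succ]
  have : (face B i).toRingHom.comp (eval₂Hom (src B 0) fun n => (X (0, n) : W A)) =
      eval₂Hom (src B 0) (fun n => X (0, n)) := by
    apply MvPolynomial.ringHom_ext
    · intro r
      simp [src_zero]
    · intro n
      simp [face_X_lt B (x := (0, n)) hi]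
  exact RingHom.congr_fun this (B.η a)

theorem face_succ_shift (i : ℕ) (y : W A) : face B (i + 1) (shift B y) = shift B (face B i y) := by
  have : (face B (i + 1)).toRingHom.comp (shift B) = (shift B).comp (face B i).toRingHom := by
    apply MvPolynomial.ringHom_ext
    · intro r
      simp [shift_C, face_src_one B (Nat.succ_pos i)]
    · rintro ⟨j, n⟩
      rcases lt_trichotomy j i with h | rfl | h
      · simp [shift_X, face_X_lt B (x := (j, n)) h, face_X_lt B (x := (j + 1, n)) (Nat.succ_lt_succ h)]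
      · have e : (shift B).comp (eval₂Hom (src B j)
            (Sum.elim (fun n => X (j, n)) fun n => X (j + 1, n))) = eval₂Hom (src B (j + 1))
            (Sum.elim (fun n => X (j + 1, n)) fun n => X (j + 1 + 1, n)) := by
          apply MvPolynomial.ringHom_ext
          · intro r; simp [shift_src]
          · rintro (k | k) <;> simp [shift_X]
        have e' := RingHom.congr_fun e (B.Δ (X n))
        simp only [RingHom.comp_apply] at e' ⊢
        simp only [AlgHom.toRingHom_eq_coe, RingHom.coe_coe, shift_X, face_X_eq]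
        exact e'.symm
      · simp [shift_X, face_X_gt B (x := (j, n)) h, face_X_gt B (x := (j + 1, n)) (Nat.succ_lt_succ h)]
  exact RingHom.congr_fun this y

/-- `Δ η_R = 1 ⊗ η_R`. -/
def DeltaEta : Prop := ∀ a, B.Δ (B.η a) =
  eval₂Hom ((rename (R := A) (Sum.inl : ℕ → ℕ ⊕ ℕ)).toRingHom.comp B.η) (fun k => X (Sum.inr k)) (B.η a)

variable {B}

theorem face_zero_src (hB : DeltaEta B) (a : A) : face B 0 (src B 1 a) = src B 2 a := by
  rw [src_succ, src_succ]
  have e1 : (face B 0).toRingHom.comp (eval₂Hom (src B 0) fun n => (X (0, n) : W A)) =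
      (eval₂Hom (src B 0) (Sum.elim (fun n => (X (0, n) : W A)) fun n => X (0 + 1, n))).comp
        B.Δ.toRingHom := by
    apply MvPolynomial.ringHom_ext
    · intro r
      have : B.Δ (C r) = C r := B.Δ.commutes r
      simp [src_zero, this]
    · intro n
      simp [face_X_eq]
  have e2 := RingHom.congr_fun e1 (B.η a)
  simp only [RingHom.comp_apply, AlgHom.toRingHom_eq_coe, RingHom.coe_coe] at e2
  rw [e2, hB a]
  have e3 : (eval₂Hom (src B 0) (Sum.elim (fun n => (X (0, n) : W A)) fun n => X (0 + 1, n))).comp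
      (eval₂Hom ((rename (R := A) (Sum.inl : ℕ → ℕ ⊕ ℕ)).toRingHom.comp B.η) fun k =>
        X (Sum.inr k)) = eval₂Hom (src B 1) (fun n => X (1, n)) := by
    apply MvPolynomial.ringHom_ext
    · intro r
      have e4 : (eval₂Hom (src B 0) (Sum.elim (fun n => (X (0, n) : W A)) fun n =>
          X (0 + 1, n))).comp (rename (R := A) (Sum.inl : ℕ → ℕ ⊕ ℕ)).toRingHom =
          eval₂Hom (src B 0) (fun n => X (0, n)) := by
        apply MvPolynomial.ringHom_ext
        · intro r; simp
        · intro n; simp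
      have e5 := RingHom.congr_fun e4 (B.η r)
      simp only [RingHom.comp_apply] at e5 ⊢
      rw [coe_eval₂Hom (src B 1), eval₂_C]
      rw [coe_eval₂Hom (RingHom.comp _ _), eval₂_C]
      exact e5
    · intro n
      simp
  exact RingHom.congr_fun e3 (B.η a)

theorem face_zero_shift (hB : DeltaEta B) (y : W A) :
    face B 0 (shift B y) = shift B (shift B y) := by
  have : (face B 0).toRingHom.comp (shift B) = (shift B).comp (shift B) := by
    apply MvPolynomial.ringHom_ext
    · intro r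
      simp [shift_C, face_zero_src hB, shift_src]
    · rintro ⟨j, n⟩
      simp [shift_X, face_X_gt B (x := (j + 1, n)) (Nat.succ_pos j)]
  exact RingHom.congr_fun this y

theorem face_add_shift_iter (s i : ℕ) (y : W A) :
    face B (i + s) ((shift B)^[s] y) = (shift B)^[s] (face B i y) := by
  induction s with
  | zero => rfl
  | succ s ih => rw [Function.iterate_succ_apply', Function.iterate_succ_apply', ← add_assoc,
      face_succ_shift, ih]

theorem face_lt_shift_iter (hB : DeltaEta B) {s i : ℕ} (h : i < s) (y : W A) :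
    face B i ((shift B)^[s] y) = (shift B)^[s + 1] y := by
  obtain ⟨r, rfl⟩ := Nat.exists_eq_add_of_lt h
  have e1 : (shift B)^[i + r + 1] y = (shift B)^[i] (shift B ((shift B)^[r] y)) := by
    rw [← Function.iterate_succ_apply' (shift B), ← Function.iterate_add_apply]; rfl
  have e2 := face_add_shift_iter (B := B) i 0 (shift B ((shift B)^[r] y))
  rw [zero_add] at e2
  rw [e1, e2, face_zero_shift hB]
  rw [← Function.iterate_succ_apply' (shift B), ← Function.iterate_succ_apply' (shift B),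
    ← Function.iterate_add_apply]
  rfl

theorem face_of_supported {s i : ℕ} (h : s ≤ i) {w : W A}
    (hw : w ∈ supported A {x : ℕ × ℕ | x.1 < s}) : face B i w = w := by
  rw [supported_eq_adjoin_X] at hw
  induction hw using Algebra.adjoin_induction with
  | mem x hx =>
    obtain ⟨y, hy, rfl⟩ := hx
    exact face_X_lt B (lt_of_lt_of_le hy h)
  | algebraMap r => exact face_C B i r
  | add x y _ _ hx hy => rw [map_add, hx, hy]
  | mul x y _ _ hx hy => rw [map_mul, hx, hy]

variable (B)

/-- The cobar differential on words. -/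
noncomputable def cw (s : ℕ) (w : W A) : W A :=
  shift B w + ∑ i ∈ range s, (-1 : ℤ) ^ (i + 1) • face B i w + (-1 : ℤ) ^ (s + 1) • w

variable {B}

theorem shift_iter_mul (s : ℕ) (x y : W A) :
    (shift B)^[s] (x * y) = (shift B)^[s] x * (shift B)^[s] y := iterate_map_mul _ _ _ _

theorem shift_iter_add (s : ℕ) (x y : W A) :
    (shift B)^[s] (x + y) = (shift B)^[s] x + (shift B)^[s] y := iterate_map_add _ _ _ _

theorem shift_iter_zero (s : ℕ) : (shift B)^[s] (0 : W A) = 0 := iterate_map_zero _ _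

theorem shift_iter_zsmul (s : ℕ) (n : ℤ) (x : W A) :
    (shift B)^[s] (n • x) = n • (shift B)^[s] x := by
  induction s with
  | zero => rfl
  | succ s ih => rw [Function.iterate_succ_apply', Function.iterate_succ_apply', ih, map_zsmul]

theorem shift_iter_sum {ι : Type*} (s : ℕ) (t : Finset ι) (f : ι → W A) :
    (shift B)^[s] (∑ i ∈ t, f i) = ∑ i ∈ t, (shift B)^[s] (f i) := by
  induction s with
  | zero => rfl
  | succ s ih =>
    rw [Function.iterate_succ_apply', ih, map_sum]
    exact sum_congr rfl fun i _ => (Function.iterate_succ_apply' _ _ _).symm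

theorem shift_iter_comm (s : ℕ) (x : W A) :
    (shift B)^[s] (shift B x) = shift B ((shift B)^[s] x) := by
  rw [← Function.iterate_succ_apply, Function.iterate_succ_apply']

/-- The Leibniz formula for the cobar differential. -/
theorem cw_mul (hB : DeltaEta B) {s : ℕ} (s' : ℕ) {w : W A}
    (hw : w ∈ supported A {x : ℕ × ℕ | x.1 < s}) (w' : W A) :
    cw B (s + s') (w * (shift B)^[s] w') =
      cw B s w * (shift B)^[s + 1] w' + (-1 : ℤ) ^ s • (w * (shift B)^[s] (cw B s' w')) := by
  have h1 : ∑ i ∈ range (s + s'), (-1 : ℤ) ^ (i + 1) • face B i (w * (shift B)^[s] w') =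
      (∑ i ∈ range s, (-1 : ℤ) ^ (i + 1) • face B i w) * (shift B)^[s + 1] w' +
      (-1 : ℤ) ^ s • (w * (shift B)^[s] (∑ i ∈ range s', (-1 : ℤ) ^ (i + 1) • face B i w')) := by
    rw [sum_range_add]
    congr 1
    · rw [sum_mul]
      refine sum_congr rfl fun i hi => ?_
      rw [map_mul, face_lt_shift_iter hB (mem_range.1 hi), smul_mul_assoc]
    · rw [shift_iter_sum, mul_sum, smul_sum]
      refine sum_congr rfl fun i _ => ?_
      rw [map_mul, face_of_supported (by omega) hw, add_comm s i, face_add_shift_iter,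
        shift_iter_zsmul, mul_smul_comm, smul_smul]
      congr 1
      ring
  unfold cw
  rw [h1, map_mul, shift_iter_add, shift_iter_add, shift_iter_zsmul, shift_iter_comm,
    Function.iterate_succ_apply']
  rw [add_mul, add_mul, mul_add, mul_add, smul_add, smul_add]
  simp only [smul_mul_assoc, mul_smul_comm, smul_smul]
  have e1 : (-1 : ℤ) ^ s * (-1) ^ (s' + 1) = (-1) ^ (s + s' + 1) := by ring
  have e2 : (-1 : ℤ) ^ (s + 1) = - (-1) ^ s := by ring
  rw [e1, e2, neg_smul]
  abel

end Words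

section Degrees

variable {p : ℕ} {A : Type} [CommRing A] {B : S.BPBP p A} {M N K : ModuleCat.{0} A}

theorem shift_monomial (e : ℕ × ℕ →₀ ℕ) : shift B (monomial e 1) =
    monomial (e.mapDomain fun x => (x.1 + 1, x.2)) 1 := by
  rw [← rename_monomial]
  have : monomial e (1 : A) = e.prod fun n k => (X n : W A) ^ k := by
    rw [monomial_eq, C_1, one_mul]
  rw [this, Finsupp.prod, map_prod, map_prod]
  refine prod_congr rfl fun x _ => ?_
  rw [map_pow, map_pow, shift_X, rename_X]

theorem rename_block_monomial (e : ℕ →₀ ℕ) :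
    rename (R := A) (fun n => ((0 : ℕ), n)) (monomial e 1) =
      monomial (e.mapDomain fun n => ((0 : ℕ), n)) 1 := rename_monomial _ _ _

theorem shiftM_mem {D : Comod B M} {s : ℕ} {t : ℤ} {z : W A ⊗[A] M} (hz : z ∈ cochain D s t) :
    shiftM D z ∈ cochain D (s + 1) t := by
  refine AddSubgroup.closure_induction (p := fun z _ => shiftM D z ∈ cochain D (s + 1) t)
    ?_ (by simp) (fun x y _ _ hx hy => by rw [map_add]; exact add_mem hx hy)
    (fun x _ hx => by rw [map_neg]; exact neg_mem hx) hz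
  rintro _ ⟨e, k, y, he, hy, hk, rfl⟩
  obtain ⟨n, e', y', h1, h2⟩ := D.mem k y hy
  rw [shiftM_tmul, h1, map_sum, smul_sum]
  refine sum_mem fun i _ => ?_
  rw [LinearMap.rTensor_tmul, smul_tmul', shift_monomial]
  change ((monomial _ 1 : W A) • (rename (R := A) (fun n => ((0 : ℕ), n)) (monomial (e' i) 1) : W A))
    ⊗ₜ[A] _ ∈ _
  rw [rename_block_monomial, smul_eq_mul, monomial_mul, one_mul]
  refine AddSubgroup.subset_closure ⟨_, _, y' i, ?_, h2 i, ?_, rfl⟩
  · intro j hj
    rcases Finset.mem_union.1 (Finsupp.support_add hj) with hj | hj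
    · obtain ⟨l, hl, rfl⟩ := Finset.mem_image.1 (Finsupp.mapDomain_support hj)
      exact Nat.succ_lt_succ (he l hl)
    · obtain ⟨l, hl, rfl⟩ := Finset.mem_image.1 (Finsupp.mapDomain_support hj)
      exact Nat.succ_pos _
  · rw [Finsupp.sum_add_index' (by simp) (by intros; push_cast; ring),
      Finsupp.sum_mapDomain_index (by simp) (by intros; push_cast; ring),
      Finsupp.sum_mapDomain_index (by simp) (by intros; push_cast; ring), ← hk]
    ring

theorem shiftM_iter_mem {D : Comod B M} {s : ℕ} {t : ℤ} {z : W A ⊗[A] M}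
    (hz : z ∈ cochain D s t) (r : ℕ) : (shiftM D)^[r] z ∈ cochain D (r + s) t := by
  induction r with
  | zero => simpa using hz
  | succ r ih =>
    rw [Function.iterate_succ_apply', show r + 1 + s = r + s + 1 by omega]
    exact shiftM_mem ih

theorem cup_mem_cochain {D : Comod B M} {E : Comod B N} {F : Comod B K} {κ : M →ₗ[A] N →ₗ[A] K}
    (hκ : ∀ i j, ∀ x ∈ D.deg i, ∀ y ∈ E.deg j, κ x y ∈ F.deg (i + j)) {s s' : ℕ} {t t' : ℤ}
    {x : W A ⊗[A] M} {y : W A ⊗[A] N} (hx : x ∈ cochain D s t) (hy : y ∈ cochain E s' t') :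
    cup κ E s x y ∈ cochain F (s + s') (t + t') := by
  have hy' := shiftM_iter_mem hy s
  unfold cup
  generalize (shiftM E)^[s] y = y at hy'
  refine AddSubgroup.closure_induction (p := fun x _ => map₂ (LinearMap.mul A (W A)) κ x y ∈
    cochain F (s + s') (t + t')) ?_ (by simp)
    (fun x x' _ _ hx hx' => by rw [map_add, LinearMap.add_apply]; exact add_mem hx hx')
    (fun x _ hx => by rw [map_neg, LinearMap.neg_apply]; exact neg_mem hx) hx
  rintro _ ⟨e, k, m, he, hm, hk, rfl⟩
  refine AddSubgroup.closure_induction (p := fun y _ => map₂ (LinearMap.mul A (W A)) κ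
    (monomial e 1 ⊗ₜ[A] m) y ∈ cochain F (s + s') (t + t')) ?_ (by simp)
    (fun x x' _ _ hx hx' => by rw [map_add]; exact add_mem hx hx')
    (fun x _ hx => by rw [map_neg]; exact neg_mem hx) hy'
  rintro _ ⟨e', k', m', he', hm', hk', rfl⟩
  rw [map₂_apply_tmul, TensorProduct.map_tmul, LinearMap.mul_apply', monomial_mul, one_mul]
  refine AddSubgroup.subset_closure ⟨_, _, _, ?_, hκ _ _ _ hm _ hm', ?_, rfl⟩
  · intro j hj
    rcases Finset.mem_union.1 (Finsupp.support_add hj) with hj | hj
    · exact lt_of_lt_of_le (he j hj) (by omega)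
    · exact he' j hj
  · rw [Finsupp.sum_add_index' (by simp) (by intros; push_cast; ring), ← hk, ← hk']
    ring

end Degrees

section Cyclic

variable {p : ℕ} {A : Type} [CommRing A] {B : S.BPBP p A} {M : ModuleCat.{0} A} {D : Comod B M}
  {x : M}

theorem shiftM_gen (hx : D.ψ x = 1 ⊗ₜ x) (w : W A) : shiftM D (w ⊗ₜ x) = shift B w ⊗ₜ x := by
  rw [shiftM_tmul, hx, LinearMap.rTensor_tmul, smul_tmul']
  have : (rename (R := A) (fun n => ((0 : ℕ), n))).toLinearMap (1 : MvPolynomial ℕ A) = 1 :=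
    map_one (rename (R := A) (fun n => ((0 : ℕ), n)))
  rw [this, smul_eq_mul, mul_one]

theorem shiftM_iter_gen (hx : D.ψ x = 1 ⊗ₜ x) (s : ℕ) (w : W A) :
    (shiftM D)^[s] (w ⊗ₜ x) = ((shift B)^[s] w) ⊗ₜ x := by
  induction s with
  | zero => rfl
  | succ s ih => rw [Function.iterate_succ_apply', ih, shiftM_gen hx, Function.iterate_succ_apply']

theorem zsmul_tmul (n : ℤ) (w : W A) (y : M) : (n • w) ⊗ₜ[A] y = n • (w ⊗ₜ[A] y) := by
  rw [smul_tmul']

theorem cobar_gen (hx : D.ψ x = 1 ⊗ₜ x) (s : ℕ) (w : W A) :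
    cobar D s (w ⊗ₜ x) = cw B s w ⊗ₜ x := by
  rw [cobar, cw, shiftM_gen hx, add_tmul, add_tmul, sum_tmul, zsmul_tmul]
  congr 2

theorem exists_tmul (hs : ∀ y : M, ∃ a : A, y = a • x) (z : W A ⊗[A] M) :
    ∃ w : W A, z = w ⊗ₜ x := by
  induction z using TensorProduct.induction_on with
  | zero => exact ⟨0, by rw [zero_tmul]⟩
  | tmul w y =>
    obtain ⟨a, rfl⟩ := hs y
    exact ⟨a • w, by rw [tmul_smul, smul_tmul']⟩
  | add y z hy hz =>
    obtain ⟨w, rfl⟩ := hy
    obtain ⟨w', rfl⟩ := hz
    exact ⟨w + w', by rw [add_tmul]⟩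

theorem exists_supported (hs : ∀ y : M, ∃ a : A, y = a • x) {s : ℕ} {t : ℤ} {z : W A ⊗[A] M}
    (hz : z ∈ cochain D s t) :
    ∃ w ∈ supported A {x : ℕ × ℕ | x.1 < s}, z = w ⊗ₜ x := by
  refine AddSubgroup.closure_induction (p := fun z _ =>
    ∃ w ∈ supported A {x : ℕ × ℕ | x.1 < s}, z = w ⊗ₜ x) ?_ ⟨0, zero_mem _, by rw [zero_tmul]⟩
    ?_ ?_ hz
  · rintro _ ⟨e, k, y, he, hy, hk, rfl⟩
    obtain ⟨a, rfl⟩ := hs y
    refine ⟨a • monomial e 1, ?_, by rw [tmul_smul, smul_tmul']⟩
    refine Subalgebra.smul_mem _ ?_ a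
    rw [monomial_eq, C_1, one_mul]
    refine Subalgebra.prod_mem _ fun i hi => pow_mem ?_ _
    rw [supported_eq_adjoin_X]
    exact Algebra.subset_adjoin ⟨i, he i hi, rfl⟩
  · rintro x y _ _ ⟨w, hw, rfl⟩ ⟨w', hw', rfl⟩
    exact ⟨w + w', add_mem hw hw', by rw [add_tmul]⟩
  · rintro x _ ⟨w, hw, rfl⟩
    exact ⟨-w, neg_mem hw, by rw [neg_tmul]⟩

theorem cup_gen (hx : D.ψ x = 1 ⊗ₜ x) {κ : M →ₗ[A] M →ₗ[A] M} (hκ : κ x x = x) (s : ℕ)
    (w w' : W A) : cup κ D s (w ⊗ₜ x) (w' ⊗ₜ x) = (w * (shift B)^[s] w') ⊗ₜ x := by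
  rw [cup, shiftM_iter_gen hx, map₂_apply_tmul, TensorProduct.map_tmul, hκ, LinearMap.mul_apply']

end Cyclic

end Vale.Agent.P257.Q
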