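import Vale.Agent.P257.S.Defs

namespace Vale.Agent.P257.Q

open MvPolynomial TensorProduct CategoryTheory MonoidalCategory Limits Pretriangulated Finset
  Vale.Agent.P257.S

universe v' u

section Cobar

variable {p : ℕ} {A : Type} [CommRing A] (B : BPBP p A)

/-- `BP_*[t_n^(j)]`: functions on strings of composable morphisms of the groupoid of `BP_*BP`;
the variable `(j, n)` is `t_(n+1)` of the `j`-th morphism. -/
abbrev W (A : Type) [CommRing A] : Type := MvPolynomial (ℕ × ℕ) A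

/-- The source of the `j`-th morphism. -/
noncomputable def src : ℕ → A →+* W A
  | 0 => C
  | j + 1 => (eval₂Hom (src j) fun n => X (j, n)).comp B.η

/-- Forget the first morphism. -/
noncomputable def shift : W A →+* W A := eval₂Hom (src B 1) fun x => X (x.1 + 1, x.2)

/-- Compose the `i`-th morphism and the next one. -/
noncomputable def face (i : ℕ) : W A →ₐ[A] W A :=
  aeval fun x => if x.1 < i then X x else if x.1 = i then
    eval₂Hom (src B i) (Sum.elim (fun n => X (i, n)) fun n => X (i + 1, n)) (B.Δ (X x.2))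
  else X (x.1 + 1, x.2)

variable {B} {M N K : ModuleCat.{0} A}

theorem rTensor_smul' (γ : MvPolynomial ℕ A) (z : MvPolynomial ℕ A ⊗[A] M) :
    LinearMap.rTensor M (rename (R := A) fun n => ((0 : ℕ), n)).toLinearMap (γ • z) =
      (rename (R := A) (fun n => ((0 : ℕ), n)) γ : W A) •
        LinearMap.rTensor M (rename (R := A) fun n => ((0 : ℕ), n)).toLinearMap z := by
  induction z using TensorProduct.induction_on with
  | zero => simp
  | add x y hx hy => rw [smul_add, map_add, hx, hy, map_add, smul_add]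
  | tmul g y => simp [smul_tmul']

theorem src_one (a : A) :
    src B 1 a = (rename (R := A) (fun n => ((0 : ℕ), n)) (B.η a) : W A) := by
  simp only [src, RingHom.comp_apply]
  change eval₂Hom C (fun n => X (0, n)) (B.η a) = _
  rw [← RingHom.congr_fun (ringHom_ext (f := (rename (R := A) fun n => ((0 : ℕ), n)).toRingHom)
    (g := eval₂Hom C fun n => X (0, n)) (by simp) (by simp)) (B.η a)]
  rfl

/-- Forget the first morphism, on cochains with values in a comodule. -/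
noncomputable def shiftM (D : Comod B M) : W A ⊗[A] M →+ W A ⊗[A] M :=
  liftAddHom
    (AddMonoidHom.mk' (fun w => AddMonoidHom.mk'
        (fun x => shift B w • LinearMap.rTensor M (rename fun n => ((0 : ℕ), n)).toLinearMap (D.ψ x))
        fun x y => by rw [D.add, map_add, smul_add])
      fun w w' => by ext x; simp [add_smul])
    fun a w x => by
      simp only [AddMonoidHom.mk'_apply, D.smul]
      rw [rTensor_smul', ← src_one, smul_eq_C_mul, map_mul, smul_smul, mul_comm]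
      simp [shift]

/-- The cobar differential on `C^s`. -/
noncomputable def cobar (D : Comod B M) (s : ℕ) (x : W A ⊗[A] M) : W A ⊗[A] M :=
  shiftM D x + ∑ i ∈ range s, (-1 : ℤ) ^ (i + 1) • LinearMap.rTensor M (face B i).toLinearMap x +
    (-1 : ℤ) ^ (s + 1) • x

/-- The cochains of cohomological degree `s` and internal degree `t`. -/
noncomputable def cochain (D : Comod B M) (s : ℕ) (t : ℤ) : AddSubgroup (W A ⊗[A] M) :=
  AddSubgroup.closure {z | ∃ (e : ℕ × ℕ →₀ ℕ) (k : ℤ) (y : M), (∀ i ∈ e.support, i.1 < s) ∧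
    y ∈ D.deg k ∧ k + (e.sum fun i m => m * vdeg p (i.2 + 1)) = t ∧ z = monomial e 1 ⊗ₜ y}

/-- `x` is a cocycle: it represents a class in `Ext^(s,t)(BP_*, M)`. -/
def IsCocycle (D : Comod B M) (s : ℕ) (t : ℤ) (x : W A ⊗[A] M) : Prop :=
  x ∈ cochain D s t ∧ cobar D s x = 0

/-- `x` is a coboundary. -/
def IsCobdry (D : Comod B M) (s : ℕ) (t : ℤ) (x : W A ⊗[A] M) : Prop :=
  x = 0 ∨ ∃ n, s = n + 1 ∧ ∃ y ∈ cochain D n t, x = cobar D n y

/-- The cup product of `x` of cohomological degree `s` with `y`. -/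
noncomputable def cup (κ : M →ₗ[A] N →ₗ[A] K) (D : Comod B N) (s : ℕ) (x : W A ⊗[A] M)
    (y : W A ⊗[A] N) : W A ⊗[A] K :=
  map₂ (LinearMap.mul A (W A)) κ x ((shiftM D)^[s] y)

/-- Powers, for the cup product, of a cochain `b` of cohomological degree `s`. -/
noncomputable def pow (B : BPBP p A) (s : ℕ) (b : W A) : ℕ → W A
  | 0 => 1
  | n + 1 => b * (shift B)^[s] (pow B s b n)

/-- `- b_(1,0)`; it represents `β_1` up to sign. -/
noncomputable def b₁ (p : ℕ) (A : Type) [CommRing A] : W A :=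
  ∑ i ∈ Ioo 0 p, ((p.choose i / p : ℕ) : W A) * X (0, 0) ^ i * X (1, 0) ^ (p - i)

end Cobar

section Topology

variable {p : ℕ} {A : Type} [CommRing A] {B : BPBP p A} {T : Type u} [Category.{v'} T]
  [Preadditive T] [HasShift T ℤ] [MonoidalCategory T]

/-- `κ` has the properties of the external product of `BP`-homology, `g` generates `BP_*(S)`. -/
structure IsProduct (h : T ⥤ ModuleCat.{0} A) (C : ∀ X, Comod B (h.obj X))
    (κ : ∀ X Y, h.obj X →ₗ[A] h.obj Y →ₗ[A] h.obj (X ⊗ Y)) (g : h.obj (𝟙_ T)) : Prop where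
  gen : IsCyclic (C (𝟙_ T)) 0 0 g
  unit : ∀ X x, (h.map (λ_ X).hom).hom (κ (𝟙_ T) X g x) = x
  nat : ∀ X X' Y Y' (f : X ⟶ X') (f' : Y ⟶ Y') x y, (h.map (f ⊗ₘ f')).hom (κ X Y x y) =
    κ X' Y' ((h.map f).hom x) ((h.map f').hom y)
  deg : ∀ X Y i j, ∀ x ∈ (C X).deg i, ∀ y ∈ (C Y).deg j, κ X Y x y ∈ (C (X ⊗ Y)).deg (i + j)
  coaction : ∀ X Y x y, (C (X ⊗ Y)).ψ (κ X Y x y) =
    map₂ (LinearMap.mul A _) (κ X Y) ((C X).ψ x) ((C Y).ψ y)
  sphere : ∀ (n : ℤ) X, Nonempty ((𝟙_ T)⟦n⟧ ⊗ X ≅ X⟦n⟧) ∧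
    ∀ x, IsCyclic (C ((𝟙_ T)⟦n⟧)) 0 n x → Function.Bijective (κ _ X x)

/-- `(x, y) ∈ E X r s t` means: the class of `x` in `E_2^(s,t)(X)` survives to `E_r`, and
`d_r [x] = [y]`, for the Adams-Novikov spectral sequence of `X`. -/
structure IsANSS (h : T ⥤ ModuleCat.{0} A) (C : ∀ X, Comod B (h.obj X))
    (κ : ∀ X Y, h.obj X →ₗ[A] h.obj Y →ₗ[A] h.obj (X ⊗ Y)) (F : T → Prop)
    (E : ∀ X : T, ℕ → ℕ → ℤ → AddSubgroup (W A ⊗[A] h.obj X × W A ⊗[A] h.obj X)) : Prop where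
  cocycle : ∀ X r s t x y, (x, y) ∈ E X r s t →
    IsCocycle (C X) s t x ∧ IsCocycle (C X) (s + r) (t + r - 1) y
  total : ∀ X s t x, IsCocycle (C X) s t x → ∃ y, (x, y) ∈ E X 2 s t
  second : ∀ X s t y, (0, y) ∈ E X 2 s t ↔ IsCobdry (C X) (s + 2) (t + 1) y
  cobdry : ∀ X r s t x, 2 ≤ r → IsCobdry (C X) s t x → (x, 0) ∈ E X r s t
  kernel : ∀ X r s t x, 2 ≤ r → ((x, 0) ∈ E X r s t ↔ ∃ y, (x, y) ∈ E X (r + 1) s t)
  image : ∀ X r s t y, 2 ≤ r → ((0, y) ∈ E X (r + 1) s t ↔ ∃ x, (x, y) ∈ E X r (s + 1) (t + 1))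
  square : ∀ X r s t x y, 2 ≤ r → (x, y) ∈ E X r s t → (y, 0) ∈ E X r (s + r) (t + r - 1)
  nat : ∀ X Y (f : X ⟶ Y) r s t x y, (x, y) ∈ E X r s t →
    (LinearMap.lTensor (W A) (h.map f).hom x, LinearMap.lTensor (W A) (h.map f).hom y) ∈ E Y r s t
  leibniz : ∀ X Y r s t s' t' x y x' y', 2 ≤ r → (x, y) ∈ E X r s t → (x', y') ∈ E Y r s' t' →
    ∃ a b : ℤˣ, (cup (κ X Y) (C Y) s x x',
      a • cup (κ X Y) (C Y) (s + r) y x' + b • cup (κ X Y) (C Y) s x y') ∈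
        E (X ⊗ Y) r (s + s') (t + t')
  edge : ∀ X t x, F X → IsCocycle (C X) 0 t x → (∀ r, 2 ≤ r → (x, 0) ∈ E X r 0 t) →
    ∃ (f : (𝟙_ T)⟦t⟧ ⟶ X) (g : h.obj ((𝟙_ T)⟦t⟧)), IsCyclic (C ((𝟙_ T)⟦t⟧)) 0 t g ∧
      x = 1 ⊗ₜ (h.map f).hom g
  conv : ∀ X t (f : (𝟙_ T)⟦t⟧ ⟶ X), F X → h.map f = 0 →
    (∀ (s : ℕ) x, 1 ≤ s → IsCocycle (C X) s (t + s) x → IsCobdry (C X) s (t + s) x) → f = 0

/-- The functors `- ⊗ X` are exact. -/
def IsExactTensor (T : Type u) [Category.{v'} T] [Preadditive T] [HasShift T ℤ]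
    [MonoidalCategory T] [HasZeroObject T] [∀ n : ℤ, (shiftFunctor T n).Additive]
    [Pretriangulated T] : Prop :=
  ∀ X : T, ∃ _ : (tensorRight X).CommShift ℤ, (tensorRight X).IsTriangulated

/-- `X` is a finite `p`-local spectrum. -/
def IsFin (p : ℕ) [HasZeroObject T] [∀ n : ℤ, (shiftFunctor T n).Additive] [Pretriangulated T]
    (X : T) : Prop :=
  let L : T → Prop := fun X => ∀ m : ℕ, m.Coprime p → IsIso (m • 𝟙 X)
  ∃ (A B : T) (ι : A ⟶ B) (i : X ⟶ B) (r : B ⟶ X),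
    (∀ P : T → Prop, (∀ Y, IsZero Y → P Y) →
      (∀ D ∈ distTriang T, (∃ n : ℤ, Nonempty (D.obj₁ ≅ (𝟙_ T)⟦n⟧)) → P D.obj₂ → P D.obj₃) → P A) ∧
    L B ∧ (∀ Z, L Z → Function.Bijective fun g : B ⟶ Z => ι ≫ g) ∧ i ≫ r = 𝟙 X

end Topology

end Vale.Agent.P257.Q
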