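import Vale.Agent.P257.V.Final
import Vale.Agent.P257.L.Facts

/-! The existence of `V(4)` from the facts on `Ext_P(F_p, F_p)`. -/

namespace Vale.Agent.P257.Q

open MvPolynomial TensorProduct Finset CategoryTheory MonoidalCategory Limits Pretriangulated
  Vale.Agent.P257.S

universe v' u

variable {p : ℕ} [hp : Fact p.Prime] {R : Type} [CommRing R] {B : S.BPBP p (MvPolynomial ℕ R)}
  {T : Type u} [Category.{v'} T] [HasZeroObject T] [Preadditive T]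
  [HasShift T ℤ] [∀ n : ℤ, (shiftFunctor T n).Additive] [Pretriangulated T] [IsTriangulated T]
  [HasCountableCoproducts T] [MonoidalCategory T]
  {h : T ⥤ ModuleCat.{0} (MvPolynomial ℕ R)} [h.IsHomological]
  [PreservesColimitsOfShape (Discrete ℕ) h] {C : ∀ X, Comod B (h.obj X)}
  {κ : ∀ X Y, h.obj X →ₗ[MvPolynomial ℕ R] h.obj Y →ₗ[MvPolynomial ℕ R] h.obj (X ⊗ Y)}
  {g : h.obj (𝟙_ T)}
  {E : ∀ X : T, ℕ → ℕ → ℤ → AddSubgroup (W (MvPolynomial ℕ R) ⊗[MvPolynomial ℕ R] h.obj X ×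
      W (MvPolynomial ℕ R) ⊗[MvPolynomial ℕ R] h.obj X)}

omit hp in
theorem shift_iter_X (n : ℕ) : (shift B)^[n] (X (0, 0)) = X (n, 0) := by
  induction n with
  | zero => rfl
  | succ n ih => rw [Function.iterate_succ_apply', ih, shift_X]

theorem exists_V4_of_pfacts (hp11 : 11 ≤ p) (hP : PC.PFacts p) (hR : S.IsZp p R)
    (hB : B.v = gen (p : R)) (hh : IsBPHomology (𝟙_ T) h C) (hX : IsExactTensor T)
    (hκ : IsProduct h C κ g) (hE : IsANSS h C κ (IsFin p) E)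
    (b : W (MvPolynomial ℕ R)) (c : ℤ) (hc : ¬ (p : ℤ) ∣ c)
    (hb : IsCocycle (C (𝟙_ T)) 2 (p ^ 2 * vdeg p 1) (b ⊗ₜ g))
    (toda : ((pow B 2 b (p - 1) * X (2 * (p - 1), 0)) ⊗ₜ[MvPolynomial ℕ R] g,
      (c • pow B 2 (b₁ p (MvPolynomial ℕ R)) (p ^ 2 - p + 1)) ⊗ₜ[MvPolynomial ℕ R] g) ∈
        E (𝟙_ T) (2 * (p - 1) ^ 2 + 1) (2 * p - 1) ((p ^ 3 - p ^ 2 + 1) * vdeg p 1)) :
    ∃ (V₄ : T) (y : h.obj V₄), IsFin p V₄ ∧ IsCyclic (C V₄) 5 0 y := by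
  obtain ⟨V, x, η, μ, hF, hV, hη, hμ⟩ := P257.V.exists_V_product hp11 hR hB hh hκ hE hX
    (m := 4) (by norm_num) le_rfl
  have hdd := P257.V.hdd_of hE V
  have hpu := pairing_unit hκ hη hμ x
  have hL : LFacts (C V) x := by
    refine P257L.lfacts hP (by omega) hR hB hV hdd fun s t w hw => ?_
    obtain ⟨r, ρ, σ, d, L⟩ := P257L.exists_Lift (n := 3) hR hB hV hdd
    have h1 := cup_mem_Zk (deltaEta hκ.gen) hV.2.1 hV.2.2.1 hpu (pairing_deg hh.hom hκ)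
      (mem_Zk.2 L.F0) (mem_Zk.2 hw)
    rw [mem_Zk, cup_gen hV.2.1 hpu, add_comm 2 s, add_comm (qd p p) t] at h1
    exact h1
  rw [← shift_iter_X (B := B)] at toda
  exact exists_V4_of_lfacts (by omega) hR hB hh hκ hE hF hV hη hμ hL b c hc hb toda

end Vale.Agent.P257.Q
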